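import Vale.Agent.P168.Truncation.LogTerms

/-! Comparison of the trial functionals of two related models. -/

open MeasureTheory ProbabilityTheory Filter
open scoped BigOperators NNReal ENNReal

noncomputable section

namespace Vale.Agent.P168.Trunc

attribute [local instance] isProbabilityMeasure_unif

variable {K : ℕ} {P : Measure (Factor K)} {Q : Measure ℝ} {S : Factor K → Factor K}
  {A ψ : Factor K → ℝ} {τ : ℝ → ℝ} {r : ℕ} {m : Fin r → ℝ} {x : (Fin (r + 1) → ℝ) → ℝ}

/-- `log U₀` averaged over the field and the level-zero variables. -/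
def siteInner {n : ℕ} (Q : Measure ℝ) (m : Fin r → ℝ) (x : (Fin (r + 1) → ℝ) → ℝ)
    (c : Fin n → Factor K × Fin K) : ℝ :=
  ∫ h, ∫ ω₀ : Fin n × Fin K → ℝ, logSite m x c h ω₀ ∂(Measure.pi fun _ => unif) ∂Q

/-- The same after changing factors and fields. -/
def siteInner' {n : ℕ} (Q : Measure ℝ) (m : Fin r → ℝ) (x : (Fin (r + 1) → ℝ) → ℝ)
    (S : Factor K → Factor K) (τ : ℝ → ℝ) (c : Fin n → Factor K × Fin K) : ℝ :=
  ∫ h, ∫ ω₀ : Fin n × Fin K → ℝ, logSite m x (fun k => (S (c k).1, (c k).2)) (τ h) ω₀
    ∂(Measure.pi fun _ => unif) ∂Q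

/-- `log V₀` averaged over the level-zero variables. -/
def edgeInner {n : ℕ} (m : Fin r → ℝ) (x : (Fin (r + 1) → ℝ) → ℝ) (c : Fin n → Factor K) : ℝ :=
  ∫ ω₀ : Fin n × Fin K → ℝ, logEdge m x c ω₀ ∂(Measure.pi fun _ => unif)

theorem measurable_siteAvg (hx : IsTrial m x) (n : ℕ) :
    Measurable fun p : (Fin n → Factor K × Fin K) × ℝ =>
      ∫ ω₀ : Fin n × Fin K → ℝ, logSite m x p.1 p.2 ω₀ ∂(Measure.pi fun _ => unif) :=
  (measurable_logSite hx).stronglyMeasurable.integral_prod_right'.measurable

theorem measurable_siteAvg_right (hx : IsTrial m x) {n : ℕ} (c : Fin n → Factor K × Fin K) :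
    Measurable fun h : ℝ =>
      ∫ ω₀ : Fin n × Fin K → ℝ, logSite m x c h ω₀ ∂(Measure.pi fun _ => unif) := by
  have h := (measurable_siteAvg (K := K) hx n).comp (measurable_prodMk_left (x := c))
  exact h

theorem measurable_siteInner (hx : IsTrial m x) (n : ℕ) (Q : Measure ℝ) [IsProbabilityMeasure Q] :
    Measurable fun c : Fin n → Factor K × Fin K => siteInner Q m x c :=
  (measurable_siteAvg hx n).stronglyMeasurable.integral_prod_right'.measurable

theorem measurable_siteInner' (R : Related P Q S A ψ τ) (hx : IsTrial m x) (n : ℕ)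
    [IsProbabilityMeasure Q] :
    Measurable fun c : Fin n → Factor K × Fin K => siteInner' Q m x S τ c :=
  ((measurable_siteAvg hx n).comp (((measurable_mapFst R.measS n).comp measurable_fst).prodMk
    (R.measτ.comp measurable_snd))).stronglyMeasurable.integral_prod_right'.measurable

theorem measurable_edgeInner (hx : IsTrial m x) (n : ℕ) :
    Measurable fun c : Fin n → Factor K => edgeInner m x c :=
  (measurable_logEdge hx).stronglyMeasurable.integral_prod_right'.measurable

theorem trialU_eq (lam : ℝ) (P : Measure (Factor K)) (Q : Measure ℝ) :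
    trialU lam P Q m x = poisAvg (P.prod (unifFin (Fin K))) ((K : ℝ) * lam).toNNReal
      fun _ c => siteInner Q m x c := rfl

theorem trialV_eq (lam : ℝ) (P : Measure (Factor K)) :
    trialV lam P m x = poisAvg P (((K : ℝ) - 1) * lam).toNNReal fun _ c => edgeInner m x c := rfl

attribute [local irreducible] logSite logEdge

theorem siteInner_map (R : Related P Q S A ψ τ) (hx : IsTrial m x) {n : ℕ}
    (c : Fin n → Factor K × Fin K) :
    siteInner (Q.map τ) m x (fun k => (S (c k).1, (c k).2)) = siteInner' Q m x S τ c := by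
  rw [siteInner, siteInner']
  exact integral_map R.measτ.aemeasurable (measurable_siteAvg_right hx _).aestronglyMeasurable

theorem trialU_map (R : Related P Q S A ψ τ) [Nonempty (Fin K)] (lam : ℝ) (hx : IsTrial m x) :
    trialU lam (P.map S) (Q.map τ) m x = poisAvg (P.prod (unifFin (Fin K)))
      ((K : ℝ) * lam).toNNReal fun _ c => siteInner' Q m x S τ c := by
  have := R.probP
  have := R.probQ
  have := Measure.isProbabilityMeasure_map (μ := Q) R.measτ.aemeasurable
  have := isProbabilityMeasure_unifFin (Fin K)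
  rw [trialU_eq]
  simp only [poisAvg, pi_map_fst R.measS]
  refine integral_congr_ae (Eventually.of_forall fun n => ?_)
  have h := integral_map (μ := Measure.pi fun _ : Fin n => P.prod (unifFin (Fin K)))
    (measurable_mapFst R.measS n).aemeasurable
    (f := fun c => siteInner (Q.map τ) m x c) (measurable_siteInner hx n _).aestronglyMeasurable
  simp only [siteInner_map R hx] at h
  exact h

theorem trialV_map (R : Related P Q S A ψ τ) (lam : ℝ) (hx : IsTrial m x) :
    trialV lam (P.map S) m x = poisAvg P (((K : ℝ) - 1) * lam).toNNReal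
      fun _ c => edgeInner m x fun k => S (c k) := by
  have := R.probP
  rw [trialV_eq]
  simp only [poisAvg, pi_map_const R.measS]
  refine integral_congr_ae (Eventually.of_forall fun n => ?_)
  have h := integral_map (μ := Measure.pi fun _ : Fin n => P)
    (φ := fun c k => S (c k))
    (measurable_pi_iff.2 fun k => R.measS.comp (measurable_pi_apply k)).aemeasurable
    (f := fun c => edgeInner m x c) (measurable_edgeInner hx n).aestronglyMeasurable
  exact h

theorem integrable_logSite (hx : IsTrial m x) {n : ℕ} {c : Fin n → Factor K × Fin K}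
    (hc : ∀ k, PosWeight (c k).1) (h : ℝ) :
    Integrable (logSite m x c h) (Measure.pi fun _ : Fin n × Fin K => unif) := by
  have hm := (measurable_logSite (K := K) (n := n) hx).comp (measurable_prodMk_left (x := (c, h)))
  exact integrable_of_abs_le hm fun ω₀ => abs_logSite_le hx hc h ω₀

theorem integrable_logEdge (hx : IsTrial m x) {n : ℕ} {c : Fin n → Factor K}
    (hc : ∀ k, PosWeight (c k)) :
    Integrable (logEdge m x c) (Measure.pi fun _ : Fin n × Fin K => unif) := by
  have hm := (measurable_logEdge (K := K) (n := n) hx).comp (measurable_prodMk_left (x := c))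
  exact integrable_of_abs_le hm fun ω₀ => abs_logEdge_le hx hc ω₀

theorem integrable_siteAvg (hx : IsTrial m x) {Q : Measure ℝ} [IsProbabilityMeasure Q]
    {τ : ℝ → ℝ} (hτ : Measurable τ) (hi : Integrable τ Q) {n : ℕ}
    {c : Fin n → Factor K × Fin K} (hc : ∀ k, PosWeight (c k).1) :
    Integrable (fun h => ∫ ω₀ : Fin n × Fin K → ℝ, logSite m x c (τ h) ω₀
      ∂(Measure.pi fun _ => unif)) Q :=
  ((integrable_const (Real.log 2)).add
    ((integrable_const (∑ k, absTheta (c k).1)).add hi.abs)).mono'
    ((measurable_siteAvg_right hx c).comp hτ).aestronglyMeasurable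
    (Eventually.of_forall fun h => abs_integral_le_const fun ω₀ =>
      abs_logSite_le hx hc (τ h) ω₀)

theorem abs_siteInner_le (hx : IsTrial m x) {Q : Measure ℝ} [IsProbabilityMeasure Q]
    (hQ : Integrable (fun h : ℝ => h) Q) {n : ℕ} {c : Fin n → Factor K × Fin K}
    (hc : ∀ k, PosWeight (c k).1) :
    |siteInner Q m x c| ≤ (Real.log 2 + ∫ h, |h| ∂Q) + ∑ k, absTheta (c k).1 := by
  have hQabs : Integrable (fun h : ℝ => |h|) Q := hQ.abs
  refine abs_integral_le_integral_abs.trans (le_trans (integral_mono_of_nonneg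
    (Eventually.of_forall fun h => abs_nonneg _)
    ((integrable_const (Real.log 2)).add ((integrable_const (∑ k, absTheta (c k).1)).add hQabs))
    (Eventually.of_forall fun h => abs_integral_le_const fun ω₀ =>
      abs_logSite_le hx hc h ω₀)) ?_)
  simp only [Pi.add_apply]
  rw [integral_add (integrable_const _) ((integrable_const _).fun_add hQabs),
    integral_add (integrable_const _) hQabs]
  simp only [integral_const, probReal_univ, one_smul]
  linarith

theorem siteInner_diff (R : Related P Q S A ψ τ) [IsProbabilityMeasure Q] (hx : IsTrial m x)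
    {n : ℕ} {c : Fin n → Factor K × Fin K}
    (hc : ∀ k, PosWeight (c k).1 ∧ PosWeight (S (c k).1) ∧
      ∀ σ, |theta (c k).1 σ - theta (S (c k).1) σ - A (c k).1| ≤ ψ (c k).1) :
    |siteInner Q m x c - siteInner' Q m x S τ c - ∑ k, A (c k).1| ≤
      (∫ h, |h - τ h| ∂Q) + ∑ k, ψ (c k).1 := by
  have hp : ∀ k, PosWeight (c k).1 := fun k => (hc k).1
  have hp' : ∀ k, PosWeight ((fun k => (S (c k).1, (c k).2)) k).1 := fun k => (hc k).2.1
  refine (abs_integral_sub_le (integrable_siteAvg hx measurable_id R.intField hp)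
    (integrable_siteAvg hx R.measτ R.intτ hp')
    ((integrable_const (∑ k, ψ (c k).1)).add R.intFieldErr) fun h => ?_).trans (le_of_eq ?_)
  · refine (abs_integral_sub_le (integrable_logSite hx hp h) (integrable_logSite hx hp' (τ h))
      (integrable_const ((∑ k, ψ (c k).1) + |h - τ h|)) fun ω₀ => ?_).trans (le_of_eq ?_)
    · have h1 := logSite_le hx hp hp' (fun _ => rfl) h
        (τ h) (d := fun k => A (c k).1 + ψ (c k).1)
        (fun k σ => (close_upper (hc k).2.2 σ).1) ω₀
      have h2 := logSite_le hx hp' hp (fun _ => rfl) (τ h)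
        h (d := fun k => -A (c k).1 + ψ (c k).1)
        (fun k σ => (close_upper (hc k).2.2 σ).2) ω₀
      simp only [Finset.sum_add_distrib, Finset.sum_neg_distrib] at h1 h2
      rw [abs_sub_comm (τ h) h] at h2
      exact abs_le.2 ⟨by linarith, by linarith⟩
    · simp
  · rw [integral_add' (integrable_const _) R.intFieldErr]
    simp only [integral_const, probReal_univ, one_smul]
    ring

theorem edgeInner_diff (hx : IsTrial m x) {n : ℕ} {c : Fin n → Factor K}
    (hc : ∀ k, PosWeight (c k) ∧ PosWeight (S (c k)) ∧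
      ∀ σ, |theta (c k) σ - theta (S (c k)) σ - A (c k)| ≤ ψ (c k)) :
    |edgeInner m x c - edgeInner m x (fun k => S (c k)) - ∑ k, A (c k)| ≤ 0 + ∑ k, ψ (c k) := by
  have hp : ∀ k, PosWeight (c k) := fun k => (hc k).1
  have hp' : ∀ k, PosWeight ((fun k => S (c k)) k) := fun k => (hc k).2.1
  refine (abs_integral_sub_le (integrable_logEdge hx hp) (integrable_logEdge hx hp')
    (integrable_const (∑ k, ψ (c k))) fun ω₀ => ?_).trans (le_of_eq ?_)
  · have h1 := logEdge_le hx hp hp'
      (d := fun k => A (c k) + ψ (c k)) (fun k σ => (close_upper (hc k).2.2 σ).1) ω₀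
    have h2 := logEdge_le hx hp' hp
      (d := fun k => -A (c k) + ψ (c k)) (fun k σ => (close_upper (hc k).2.2 σ).2) ω₀
    simp only [Finset.sum_add_distrib, Finset.sum_neg_distrib] at h1 h2
    exact abs_le.2 ⟨by linarith, by linarith⟩
  · simp

/-- Comparison of `𝒯 U`. -/
theorem trialU_compare (R : Related P Q S A ψ τ) [Nonempty (Fin K)] {lam : ℝ} (hlam : 0 ≤ lam)
    (hx : IsTrial m x) :
    |trialU lam P Q m x - (trialU lam (P.map S) (Q.map τ) m x + K * lam * ∫ θ, A θ ∂P)| ≤
      K * lam * (∫ θ, ψ θ ∂P) + ∫ h, |h - τ h| ∂Q := by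
  have := R.probP
  have := R.probQ
  have := isProbabilityMeasure_unifFin (Fin K)
  set ν := P.prod (unifFin (Fin K)) with hν
  have hclose : ∀ᵐ p ∂ν, PosWeight p.1 ∧ PosWeight (S p.1) ∧
      ∀ σ, |theta p.1 σ - theta (S p.1) σ - A p.1| ≤ ψ p.1 :=
    Measure.quasiMeasurePreserving_fst.ae R.close
  have hcmp := poisAvg_compare (G := fun _ c => siteInner Q m x c)
    (G' := fun _ c => siteInner' Q m x S τ c) ν (t := ((K : ℝ) * lam).toNNReal)
    (φ := fun p => absTheta p.1) (A := fun p => A p.1) (ψ := fun p => ψ p.1)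
    (R.intTheta.comp_fst _) (R.intA.comp_fst _) (R.intψ.comp_fst _)
    (fun n => measurable_siteInner hx n Q) (fun n => measurable_siteInner' R hx n)
    (fun _ => (ae_pi_forall hclose).mono fun c hc =>
      abs_siteInner_le hx R.intField fun k => (hc k).1)
    (fun _ => (ae_pi_forall hclose).mono fun c hc => siteInner_diff R hx hc)
  simp only [hν, integral_fun_fst, probReal_univ, one_smul] at hcmp
  rw [Real.coe_toNNReal _ (by positivity)] at hcmp
  rw [trialU_map R lam hx, trialU_eq, ← sub_sub]
  linarith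

/-- Comparison of `𝒯 V`. -/
theorem trialV_compare (R : Related P Q S A ψ τ) [Nonempty (Fin K)] {lam : ℝ} (hlam : 0 ≤ lam)
    (hx : IsTrial m x) :
    |trialV lam P m x - (trialV lam (P.map S) m x + ((K : ℝ) - 1) * lam * ∫ θ, A θ ∂P)| ≤
      ((K : ℝ) - 1) * lam * ∫ θ, ψ θ ∂P := by
  have := R.probP
  have hK : (1 : ℝ) ≤ K := by exact_mod_cast (Fin.pos_iff_nonempty.2 ‹_› : 0 < K)
  have hcmp := poisAvg_compare (G := fun _ c => edgeInner m x c)
    (G' := fun _ c => edgeInner m x fun k => S (c k)) P
    (t := (((K : ℝ) - 1) * lam).toNNReal) (φ := absTheta) (A := A) (ψ := ψ) (a := 0) (b := 0)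
    R.intTheta R.intA R.intψ (fun n => measurable_edgeInner hx n)
    (fun n => (measurable_edgeInner hx n).comp
      (measurable_pi_iff.2 fun k => R.measS.comp (measurable_pi_apply k)))
    (fun _ => (ae_pi_forall R.close).mono fun c hc => by
      rw [zero_add]
      exact abs_integral_le_const fun ω₀ => abs_logEdge_le hx (fun k => (hc k).1) ω₀)
    (fun _ => (ae_pi_forall R.close).mono fun c hc => edgeInner_diff hx hc)
  rw [Real.coe_toNNReal _ (mul_nonneg (by linarith) hlam), zero_add] at hcmp
  rw [trialV_map R lam hx, trialV_eq, ← sub_sub]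
  exact hcmp

end Vale.Agent.P168.Trunc
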