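import Vale.Agent.P168.Defs

/-! Averages over a Poisson number of i.i.d. variables. -/

open MeasureTheory ProbabilityTheory Filter
open scoped BigOperators NNReal ENNReal

noncomputable section

namespace Vale.Agent.P168.Trunc

theorem hasSum_poisson_id (r : ℝ≥0) :
    HasSum (fun n : ℕ => Real.exp (-r) * (r : ℝ) ^ n / Nat.factorial n * n) r := by
  rw [← hasSum_nat_add_iff' 1]
  simp only [Finset.range_one, Finset.sum_singleton, CharP.cast_eq_zero, mul_zero, sub_zero]
  have h := (hasSum_one_poissonMeasure r).mul_left (r : ℝ)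
  rw [mul_one] at h
  refine h.congr_fun fun n => ?_
  have : (Nat.factorial n : ℝ) ≠ 0 := by positivity
  rw [Nat.factorial_succ]
  push_cast
  field_simp
  ring

theorem integrable_natCast_poisson (r : ℝ≥0) :
    Integrable (fun n : ℕ => (n : ℝ)) (poissonMeasure r) := by
  rw [integrable_poissonMeasure_iff]
  simpa using (hasSum_poisson_id r).summable

theorem integral_natCast_poisson (r : ℝ≥0) :
    ∫ n : ℕ, (n : ℝ) ∂poissonMeasure r = r := by
  rw [integral_poissonMeasure]
  simpa using (hasSum_poisson_id r).tsum_eq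

variable {α : Type} [MeasurableSpace α] (ν : Measure α) [IsProbabilityMeasure ν]

theorem integrable_sum_eval (n : ℕ) {φ : α → ℝ} (hφ : Integrable φ ν) :
    Integrable (fun c : Fin n → α => ∑ k, φ (c k)) (Measure.pi fun _ => ν) :=
  integrable_finsetSum _ fun _ _ => integrable_comp_eval (μ := fun _ => ν) hφ

theorem integral_sum_eval (n : ℕ) {φ : α → ℝ} (hφ : Integrable φ ν) :
    ∫ c : Fin n → α, ∑ k, φ (c k) ∂(Measure.pi fun _ => ν) = n * ∫ x, φ x ∂ν := by
  rw [integral_finsetSum _ fun k _ => integrable_comp_eval (μ := fun _ => ν) hφ]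
  simp [integral_comp_eval (μ := fun _ : Fin n => ν) hφ.aestronglyMeasurable]

/-- `E G(π, θ₁, …, θ_π)`. -/
def poisAvg (t : ℝ≥0) (G : ∀ n, (Fin n → α) → ℝ) : ℝ :=
  ∫ n, ∫ c : Fin n → α, G n c ∂(Measure.pi fun _ => ν) ∂poissonMeasure t

/-- Two averages differing by `∑ A` up to `b + ∑ ψ`. -/
theorem poisAvg_compare {t : ℝ≥0} {G G' : ∀ n, (Fin n → α) → ℝ} {φ A ψ : α → ℝ} {a b : ℝ}
    (hφ : Integrable φ ν) (hA : Integrable A ν) (hψ : Integrable ψ ν)
    (hG : ∀ n, Measurable (G n)) (hG' : ∀ n, Measurable (G' n))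
    (hbound : ∀ n, ∀ᵐ c : Fin n → α ∂(Measure.pi fun _ => ν), |G n c| ≤ a + ∑ k, φ (c k))
    (hdiff : ∀ n, ∀ᵐ c : Fin n → α ∂(Measure.pi fun _ => ν),
      |G n c - G' n c - ∑ k, A (c k)| ≤ b + ∑ k, ψ (c k)) :
    |poisAvg ν t G - poisAvg ν t G' - t * ∫ x, A x ∂ν| ≤ b + t * ∫ x, ψ x ∂ν := by
  have hI : ∀ n, Integrable (G n) (Measure.pi fun _ => ν) := fun n =>
    ((integrable_const a).add (integrable_sum_eval ν n hφ)).mono'
      (hG n).aestronglyMeasurable (hbound n)
  have hIs : ∀ n, Integrable (fun c : Fin n → α => ∑ k, A (c k)) (Measure.pi fun _ => ν) :=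
    fun n => integrable_sum_eval ν n hA
  have hD : ∀ n, Integrable (fun c => G n c - G' n c - ∑ k, A (c k))
      (Measure.pi fun _ => ν) := fun n =>
    ((integrable_const b).add (integrable_sum_eval ν n hψ)).mono'
      (((hG n).aestronglyMeasurable.sub (hG' n).aestronglyMeasurable).sub
        (hIs n).aestronglyMeasurable) (hdiff n)
  have hI' : ∀ n, Integrable (G' n) (Measure.pi fun _ => ν) := fun n => by
    refine (((hI n).sub (hD n)).sub (hIs n)).congr (Eventually.of_forall fun c => ?_)
    simp only [Pi.sub_apply]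
    ring
  set g := fun n => ∫ c : Fin n → α, G n c ∂(Measure.pi fun _ => ν) with hgdef
  set g' := fun n => ∫ c : Fin n → α, G' n c ∂(Measure.pi fun _ => ν) with hg'def
  set d := fun n : ℕ => g n - g' n - n * ∫ x, A x ∂ν with hddef
  have hg : ∀ n, |g n| ≤ a + n * ∫ x, φ x ∂ν := fun n => by
    rw [← integral_sum_eval ν n hφ]
    calc |g n| ≤ ∫ c : Fin n → α, |G n c| ∂(Measure.pi fun _ => ν) := abs_integral_le_integral_abs
      _ ≤ ∫ c : Fin n → α, (a + ∑ k, φ (c k)) ∂(Measure.pi fun _ => ν) :=
          integral_mono_ae (hI n).abs ((integrable_const a).add (integrable_sum_eval ν n hφ))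
            (hbound n)
      _ = _ := by
          rw [integral_add (integrable_const a) (integrable_sum_eval ν n hφ)]
          simp
  have hd : ∀ n, |d n| ≤ b + n * ∫ x, ψ x ∂ν := fun n => by
    rw [← integral_sum_eval ν n hψ]
    calc |d n| = |∫ c : Fin n → α, (G n c - G' n c - ∑ k, A (c k)) ∂(Measure.pi fun _ => ν)| := by
          rw [hddef, hgdef, hg'def, integral_sub ((hI n).sub' (hI' n)) (hIs n),
            integral_sub (hI n) (hI' n), integral_sum_eval ν n hA]
      _ ≤ ∫ c : Fin n → α, |G n c - G' n c - ∑ k, A (c k)| ∂(Measure.pi fun _ => ν) :=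
          abs_integral_le_integral_abs
      _ ≤ ∫ c : Fin n → α, (b + ∑ k, ψ (c k)) ∂(Measure.pi fun _ => ν) :=
          integral_mono_ae (hD n).abs ((integrable_const b).add (integrable_sum_eval ν n hψ))
            (hdiff n)
      _ = _ := by
          rw [integral_add (integrable_const b) (integrable_sum_eval ν n hψ)]
          simp
  have hN : ∀ a s : ℝ, Integrable (fun n : ℕ => a + n * s) (poissonMeasure t) := fun a s =>
    (integrable_const a).add ((integrable_natCast_poisson t).mul_const s)
  have hgI : Integrable g (poissonMeasure t) :=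
    (hN _ _).mono' .of_discrete (Eventually.of_forall hg)
  have hdI : Integrable d (poissonMeasure t) :=
    (hN _ _).mono' .of_discrete (Eventually.of_forall hd)
  have hAI : Integrable (fun n : ℕ => (n : ℝ) * ∫ x, A x ∂ν) (poissonMeasure t) :=
    (integrable_natCast_poisson t).mul_const _
  have hg'I : Integrable g' (poissonMeasure t) := by
    refine ((hgI.sub hdI).sub hAI).congr (Eventually.of_forall fun n => ?_)
    simp only [hddef, Pi.sub_apply]
    ring
  calc |poisAvg ν t G - poisAvg ν t G' - t * ∫ x, A x ∂ν| = |∫ n, d n ∂poissonMeasure t| := by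
        simp only [hddef, poisAvg]
        rw [integral_sub (hgI.sub' hg'I) hAI, integral_sub hgI hg'I, integral_mul_const,
          integral_natCast_poisson]
    _ ≤ ∫ n, |d n| ∂poissonMeasure t := abs_integral_le_integral_abs
    _ ≤ ∫ n : ℕ, (b + n * ∫ x, ψ x ∂ν) ∂poissonMeasure t :=
        integral_mono hdI.abs (hN _ _) hd
    _ = _ := by
        rw [integral_add (integrable_const b) ((integrable_natCast_poisson t).mul_const _),
          integral_mul_const, integral_natCast_poisson]
        simp

end Vale.Agent.P168.Trunc
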