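import Vale.Agent.P168.Truncation.Terms
import Vale.Agent.P168.Truncation.Poisson

/-! Comparison of pressure and trial functional of two models related by a change of factors and
fields. -/

open MeasureTheory ProbabilityTheory Filter
open scoped BigOperators NNReal ENNReal

noncomputable section

namespace Vale.Agent.P168.Trunc

attribute [local instance] isProbabilityMeasure_unif
attribute [local irreducible] logPartition

theorem isProbabilityMeasure_unifFin (α : Type) [Fintype α] [Nonempty α] [MeasurableSpace α]
    [MeasurableSingletonClass α] : IsProbabilityMeasure (unifFin α) := by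
  refine ⟨?_⟩
  rw [unifFin, Measure.smul_apply, Measure.count_univ, smul_eq_mul, ENat.card_eq_coe_fintype_card,
    ENat.toENNReal_coe]
  exact ENNReal.inv_mul_cancel (by simp) (by simp)

section Integrals

variable {β : Type} [MeasurableSpace β] {μ : Measure β} [IsProbabilityMeasure μ]

theorem integrable_of_abs_le {f : β → ℝ} (hf : Measurable f) {C : ℝ} (h : ∀ x, |f x| ≤ C) :
    Integrable f μ :=
  (integrable_const C).mono' hf.aestronglyMeasurable (Eventually.of_forall h)

theorem abs_integral_le_const {f : β → ℝ} {C : ℝ} (h : ∀ x, |f x| ≤ C) :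
    |∫ x, f x ∂μ| ≤ C := by
  simpa using norm_integral_le_of_norm_le_const (μ := μ) (f := f) (Eventually.of_forall h)

theorem abs_integral_sub_le {f g e : β → ℝ} {C : ℝ} (hf : Integrable f μ) (hg : Integrable g μ)
    (he : Integrable e μ) (h : ∀ x, |f x - g x - C| ≤ e x) :
    |∫ x, f x ∂μ - ∫ x, g x ∂μ - C| ≤ ∫ x, e x ∂μ := by
  have e1 : ∫ x, f x ∂μ - ∫ x, g x ∂μ - C = ∫ x, (f x - g x - C) ∂μ := by
    rw [integral_sub (hf.sub' hg) (integrable_const C), integral_sub hf hg]
    simp
  rw [e1]
  exact (abs_integral_le_integral_abs).trans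
    (integral_mono ((hf.sub' hg).sub' (integrable_const C)).abs he h)

theorem ae_pi_forall {n : ℕ} {p : β → Prop} (h : ∀ᵐ x ∂μ, p x) :
    ∀ᵐ c : Fin n → β ∂(Measure.pi fun _ => μ), ∀ k, p (c k) :=
  ae_all_iff.2 fun k => (Measure.tendsto_eval_ae_ae (μ := fun _ : Fin n => μ) (i := k)).eventually h

theorem pi_map_const {γ : Type} [MeasurableSpace γ] {n : ℕ} {f : β → γ} (hf : Measurable f) :
    (Measure.pi fun _ : Fin n => μ.map f) =
      (Measure.pi fun _ : Fin n => μ).map fun c k => f (c k) := by
  have : ∀ _i : Fin n, SigmaFinite (μ.map f) := fun _ => by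
    have := Measure.isProbabilityMeasure_map (μ := μ) hf.aemeasurable
    infer_instance
  exact (Measure.pi_map_pi (μ := fun _ => μ) (f := fun _ => f) fun _ => hf.aemeasurable).symm

end Integrals

theorem map_fst_prod {α β γ : Type} [MeasurableSpace α] [MeasurableSpace β] [MeasurableSpace γ]
    {μ : Measure α} {ν : Measure β} [SFinite μ] [SFinite ν] {S : α → γ} (hS : Measurable S) :
    (μ.map S).prod ν = (μ.prod ν).map (Prod.map S id) := by
  have := Measure.map_prod_map μ ν hS measurable_id
  rwa [Measure.map_id] at this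

theorem pi_map_fst {α β : Type} [MeasurableSpace α] [MeasurableSpace β] {μ : Measure α}
    {ν : Measure β} [IsProbabilityMeasure μ] [IsProbabilityMeasure ν] {S : α → α}
    (hS : Measurable S) (n : ℕ) :
    (Measure.pi fun _ : Fin n => (μ.map S).prod ν) =
      (Measure.pi fun _ : Fin n => μ.prod ν).map fun c k => (S (c k).1, (c k).2) := by
  rw [map_fst_prod hS]
  exact pi_map_const (hS.prodMap measurable_id)

/-- The hypotheses of the comparison. -/
structure Related {K : ℕ} (P : Measure (Factor K)) (Q : Measure ℝ) (S : Factor K → Factor K)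
    (A ψ : Factor K → ℝ) (τ : ℝ → ℝ) : Prop where
  probP : IsProbabilityMeasure P
  probQ : IsProbabilityMeasure Q
  measS : Measurable S
  measτ : Measurable τ
  intTheta : Integrable absTheta P
  intA : Integrable A P
  intψ : Integrable ψ P
  intField : Integrable (fun h : ℝ => h) Q
  intτ : Integrable τ Q
  close : ∀ᵐ θ ∂P, PosWeight θ ∧ PosWeight (S θ) ∧ ∀ σ, |theta θ σ - theta (S θ) σ - A θ| ≤ ψ θ

variable {K : ℕ} {P : Measure (Factor K)} {Q : Measure ℝ} {S : Factor K → Factor K}
  {A ψ : Factor K → ℝ} {τ : ℝ → ℝ}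

theorem close_upper {θ : Factor K} (h : ∀ σ, |theta θ σ - theta (S θ) σ - A θ| ≤ ψ θ)
    (σ : Fin K → Bool) :
    theta θ σ ≤ theta (S θ) σ + (A θ + ψ θ) ∧ theta (S θ) σ ≤ theta θ σ + (-A θ + ψ θ) :=
  ⟨by linarith [(abs_le.1 (h σ)).2], by linarith [(abs_le.1 (h σ)).1]⟩

/-- The field error. -/
theorem Related.intFieldErr (R : Related P Q S A ψ τ) : Integrable (fun h => |h - τ h|) Q :=
  (R.intField.sub R.intτ).abs

/-- The averaged `log` of the partition function. -/
def presInner {N n : ℕ} (Q : Measure ℝ) (c : Fin n → Factor K × (Fin K → Fin N)) : ℝ :=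
  ∫ h : Fin N → ℝ, logPartition c h ∂(Measure.pi fun _ => Q)

/-- The same after changing factors and fields. -/
def presInner' {N n : ℕ} (Q : Measure ℝ) (S : Factor K → Factor K) (τ : ℝ → ℝ)
    (c : Fin n → Factor K × (Fin K → Fin N)) : ℝ :=
  ∫ h : Fin N → ℝ, logPartition (fun k => (S (c k).1, (c k).2)) (fun i => τ (h i))
    ∂(Measure.pi fun _ => Q)

theorem measurable_mapFst {α β γ : Type} [MeasurableSpace α] [MeasurableSpace β]
    [MeasurableSpace γ] {S : α → γ} (hS : Measurable S) (n : ℕ) :
    Measurable fun (c : Fin n → α × β) (k : Fin n) => (S (c k).1, (c k).2) :=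
  measurable_pi_iff.2 fun k => ((hS.comp measurable_fst).prodMk measurable_snd).comp
    (measurable_pi_apply k)

theorem measurable_mapField {τ : ℝ → ℝ} (hτ : Measurable τ) (N : ℕ) :
    Measurable fun (h : Fin N → ℝ) (i : Fin N) => τ (h i) :=
  measurable_pi_iff.2 fun i => hτ.comp (measurable_pi_apply i)

theorem measurable_logPartition_right {N n : ℕ} (c : Fin n → Factor K × (Fin K → Fin N)) :
    Measurable fun h : Fin N → ℝ => logPartition c h := by
  have h := (measurable_logPartition (K := K) (N := N) (n := n)).comp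
    (measurable_prodMk_left (x := c))
  exact h

theorem measurable_presInner {N n : ℕ} (Q : Measure ℝ) [IsProbabilityMeasure Q] :
    Measurable fun c : Fin n → Factor K × (Fin K → Fin N) => presInner Q c :=
  (measurable_logPartition.stronglyMeasurable.integral_prod_right').measurable

theorem measurable_presInner' {N n : ℕ} (R : Related P Q S A ψ τ) [IsProbabilityMeasure Q] :
    Measurable fun c : Fin n → Factor K × (Fin K → Fin N) => presInner' Q S τ c :=
  ((measurable_logPartition.comp (((measurable_mapFst R.measS n).comp measurable_fst).prodMk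
    ((measurable_mapField R.measτ N).comp measurable_snd))).stronglyMeasurable.integral_prod_right'
    ).measurable

theorem pressure_eq (lam : ℝ) (P : Measure (Factor K)) (Q : Measure ℝ) (N : ℕ) :
    pressure lam P Q N = (1 / (N : ℝ)) * poisAvg (P.prod (unifFin (Fin K → Fin N)))
      (lam * N).toNNReal fun _ c => presInner Q c := rfl

theorem presInner_map (R : Related P Q S A ψ τ) [IsProbabilityMeasure Q] {N n : ℕ}
    (c : Fin n → Factor K × (Fin K → Fin N)) :
    presInner (Q.map τ) (fun k => (S (c k).1, (c k).2)) = presInner' Q S τ c := by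
  rw [presInner, presInner', pi_map_const R.measτ]
  exact integral_map (measurable_mapField R.measτ _).aemeasurable
    (measurable_logPartition_right _).aestronglyMeasurable

theorem pressure_map (R : Related P Q S A ψ τ) (lam : ℝ) (M : ℕ) :
    pressure lam (P.map S) (Q.map τ) (M + 1) = (1 / ((M + 1 : ℕ) : ℝ)) *
      poisAvg (P.prod (unifFin (Fin K → Fin (M + 1)))) (lam * (M + 1 : ℕ)).toNNReal
        fun _ c => presInner' Q S τ c := by
  have := R.probP
  have := R.probQ
  have := Measure.isProbabilityMeasure_map (μ := Q) R.measτ.aemeasurable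
  have := isProbabilityMeasure_unifFin (Fin K → Fin (M + 1))
  rw [pressure_eq]
  simp only [poisAvg, pi_map_fst R.measS]
  congr 1
  refine integral_congr_ae (Eventually.of_forall fun n => ?_)
  have h := integral_map (μ := Measure.pi fun _ : Fin n => P.prod (unifFin (Fin K → Fin (M + 1))))
    (measurable_mapFst R.measS n).aemeasurable
    (f := fun c => presInner (Q.map τ) c) (measurable_presInner _).aestronglyMeasurable
  simp only [presInner_map R] at h
  exact h

theorem integrable_logPartition {N n : ℕ} {Q : Measure ℝ} [IsProbabilityMeasure Q]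
    {τ : ℝ → ℝ} (hτ : Measurable τ) (hi : Integrable τ Q)
    (c : Fin n → Factor K × (Fin K → Fin N)) :
    Integrable (fun h => logPartition c fun i => τ (h i)) (Measure.pi fun _ => Q) := by
  refine ((integrable_const ((N : ℝ) * Real.log 2)).add
    ((integrable_const (∑ k, absTheta (c k).1)).add (integrable_sum_eval Q N hi.abs))).mono'
    ((measurable_logPartition_right c).comp (measurable_mapField hτ N)).aestronglyMeasurable
    (Eventually.of_forall fun h => ?_)
  exact abs_logPartition_le c _

theorem abs_presInner_le {N n : ℕ} {Q : Measure ℝ} [IsProbabilityMeasure Q]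
    (hQ : Integrable (fun h : ℝ => h) Q) (c : Fin n → Factor K × (Fin K → Fin N)) :
    |presInner Q c| ≤ (N * Real.log 2 + N * ∫ h, |h| ∂Q) + ∑ k, absTheta (c k).1 := by
  have hQabs : Integrable (fun h : ℝ => |h|) Q := hQ.abs
  refine abs_integral_le_integral_abs.trans (le_trans (integral_mono
    (integrable_logPartition measurable_id hQ c).abs
    ((integrable_const _).add ((integrable_const _).add (integrable_sum_eval Q N hQabs)))
    fun h => abs_logPartition_le c h) ?_)
  simp only [Pi.add_apply]
  rw [integral_add (integrable_const _) ((integrable_const _).fun_add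
      (integrable_sum_eval Q N hQabs)),
    integral_add (integrable_const _) (integrable_sum_eval Q N hQabs),
    integral_sum_eval Q N hQabs]
  simp only [integral_const, probReal_univ, one_smul]
  linarith

theorem presInner_diff {N n : ℕ} (R : Related P Q S A ψ τ) [IsProbabilityMeasure Q]
    {c : Fin n → Factor K × (Fin K → Fin N)}
    (hc : ∀ k, ∀ σ, |theta (c k).1 σ - theta (S (c k).1) σ - A (c k).1| ≤ ψ (c k).1) :
    |presInner Q c - presInner' Q S τ c - ∑ k, A (c k).1| ≤
      N * (∫ h, |h - τ h| ∂Q) + ∑ k, ψ (c k).1 := by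
  have hF := R.intFieldErr
  refine (abs_integral_sub_le (integrable_logPartition measurable_id R.intField c)
    (integrable_logPartition R.measτ R.intτ _)
    ((integrable_const (∑ k, ψ (c k).1)).add (integrable_sum_eval Q N hF)) fun h => ?_).trans
      (le_of_eq ?_)
  · have h1 := logPartition_le c (fun k => (S (c k).1, (c k).2)) (fun _ => rfl) h
      (fun i => τ (h i)) (d := fun k => A (c k).1 + ψ (c k).1)
      fun k σ => (close_upper (hc k) σ).1
    have h2 := logPartition_le (fun k => (S (c k).1, (c k).2)) c (fun _ => rfl)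
      (fun i => τ (h i)) h (d := fun k => -A (c k).1 + ψ (c k).1)
      fun k σ => (close_upper (hc k) σ).2
    simp only [Finset.sum_add_distrib, Finset.sum_neg_distrib] at h1 h2
    simp only [abs_sub_comm (τ (h _)) (h _)] at h2
    simp only [Pi.add_apply, id]
    exact abs_le.2 ⟨by linarith, by linarith⟩
  · rw [integral_add' (integrable_const _) (integrable_sum_eval Q N hF),
      integral_sum_eval Q N hF]
    simp only [integral_const, probReal_univ, one_smul]
    ring

/-- Comparison of the pressures. -/
theorem pressure_compare (R : Related P Q S A ψ τ) {lam : ℝ} (hlam : 0 ≤ lam) (M : ℕ) :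
    |pressure lam P Q (M + 1) - (pressure lam (P.map S) (Q.map τ) (M + 1) + lam * ∫ θ, A θ ∂P)| ≤
      lam * (∫ θ, ψ θ ∂P) + ∫ h, |h - τ h| ∂Q := by
  have := R.probP
  have := R.probQ
  have := isProbabilityMeasure_unifFin (Fin K → Fin (M + 1))
  rw [pressure_map R]
  set N := M + 1 with hN
  set ν := P.prod (unifFin (Fin K → Fin N)) with hν
  have hclose : ∀ᵐ p ∂ν, ∀ σ, |theta p.1 σ - theta (S p.1) σ - A p.1| ≤ ψ p.1 :=
    Measure.quasiMeasurePreserving_fst.ae (R.close.mono fun θ h => h.2.2)
  have hcmp := poisAvg_compare (G := fun _ c => presInner Q c)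
    (G' := fun _ c => presInner' Q S τ c) ν (t := (lam * N).toNNReal)
    (φ := fun p => absTheta p.1) (A := fun p => A p.1) (ψ := fun p => ψ p.1)
    (R.intTheta.comp_fst _) (R.intA.comp_fst _) (R.intψ.comp_fst _)
    (fun _ => measurable_presInner Q) (fun _ => measurable_presInner' R)
    (fun _ => Eventually.of_forall fun c => abs_presInner_le R.intField c)
    (fun _ => (ae_pi_forall hclose).mono fun c hc => presInner_diff R hc)
  simp only [hν, integral_fun_fst, probReal_univ, one_smul] at hcmp
  rw [Real.coe_toNNReal _ (by positivity)] at hcmp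
  rw [← hν] at hcmp
  have e : pressure lam P Q N =
      (1 / (N : ℝ)) * poisAvg ν (lam * N).toNNReal fun _ c => presInner Q c := rfl
  rw [e]
  have hNpos : (0 : ℝ) < N := by positivity
  set X := poisAvg ν (lam * N).toNNReal fun _ c => presInner Q c
  set X' := poisAvg ν (lam * N).toNNReal fun _ c => presInner' Q S τ c
  have key : 1 / (N : ℝ) * X - (1 / (N : ℝ) * X' + lam * ∫ θ, A θ ∂P) =
      (1 / (N : ℝ)) * (X - X' - lam * N * ∫ θ, A θ ∂P) := by
    field_simp
    ring
  rw [key, abs_mul, abs_of_pos (by positivity : (0 : ℝ) < 1 / N)]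
  calc 1 / (N : ℝ) * |X - X' - lam * N * ∫ θ, A θ ∂P| ≤
      1 / (N : ℝ) * (N * (∫ h, |h - τ h| ∂Q) + lam * N * ∫ θ, ψ θ ∂P) :=
        mul_le_mul_of_nonneg_left hcmp (by positivity)
    _ = _ := by field_simp; ring

end Vale.Agent.P168.Trunc
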