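import Vale.Agent.P168.Truncation.Compare

/-! The logarithms of the nested cavity terms. -/

open MeasureTheory ProbabilityTheory Filter
open scoped BigOperators NNReal ENNReal

noncomputable section

namespace Vale.Agent.P168.Trunc

attribute [local instance] isProbabilityMeasure_unif
attribute [local irreducible] siteTerm edgeTerm nestedMean

variable {K : ℕ}

variable {r n : ℕ} {m : Fin r → ℝ} {x : (Fin (r + 1) → ℝ) → ℝ}

/-- The messages at fixed level-zero variables. -/
def msgs (x : (Fin (r + 1) → ℝ) → ℝ) (ω₀ : Fin n × Fin K → ℝ)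
    (ω : Fin n × Fin K → Fin r → ℝ) : Fin n × Fin K → ℝ :=
  fun i => x (Fin.cons (ω₀ i) (ω i))

theorem measurable_msgs (hx : Measurable x) :
    Measurable fun p : (Fin n × Fin K → ℝ) × (Fin n × Fin K → Fin r → ℝ) => msgs x p.1 p.2 :=
  measurable_pi_iff.2 fun i => hx.comp ((measurable_pi_apply i).comp measurable_consMsgs)

/-- `log U₀`. -/
def logSite (m : Fin r → ℝ) (x : (Fin (r + 1) → ℝ) → ℝ) (c : Fin n → Factor K × Fin K) (h : ℝ)
    (ω₀ : Fin n × Fin K → ℝ) : ℝ :=
  Real.log (nestedMean m fun ω => siteTerm c h (msgs x ω₀ ω))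

/-- `log V₀`. -/
def logEdge (m : Fin r → ℝ) (x : (Fin (r + 1) → ℝ) → ℝ) (c : Fin n → Factor K)
    (ω₀ : Fin n × Fin K → ℝ) : ℝ :=
  Real.log (nestedMean m fun ω => edgeTerm c (msgs x ω₀ ω))

theorem measurable_siteY (hx : IsTrial m x) (c : Fin n → Factor K × Fin K) (h : ℝ)
    (ω₀ : Fin n × Fin K → ℝ) : Measurable fun ω => siteTerm c h (msgs x ω₀ ω) :=
  ((measurable_siteTerm (K := K) (n := n)).comp (measurable_prodMk_left (x := (c, h)))).comp
    ((measurable_msgs (K := K) (n := n) hx.measurable).comp (measurable_prodMk_left (x := ω₀)))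

theorem measurable_edgeY (hx : IsTrial m x) (c : Fin n → Factor K) (ω₀ : Fin n × Fin K → ℝ) :
    Measurable fun ω => edgeTerm c (msgs x ω₀ ω) :=
  ((measurable_edgeTerm (K := K) (n := n)).comp (measurable_prodMk_left (x := c))).comp
    ((measurable_msgs (K := K) (n := n) hx.measurable).comp (measurable_prodMk_left (x := ω₀)))

theorem measurable_logSite (hx : IsTrial m x) :
    Measurable fun p : ((Fin n → Factor K × Fin K) × ℝ) × (Fin n × Fin K → ℝ) =>
      logSite m x p.1.1 p.1.2 p.2 := by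
  refine (measurable_nestedMean m ?_).log
  exact measurable_siteTerm.comp ((measurable_fst.comp measurable_fst).prodMk
    ((measurable_msgs hx.measurable).comp ((measurable_snd.comp measurable_fst).prodMk
      measurable_snd)))

theorem measurable_logEdge (hx : IsTrial m x) :
    Measurable fun p : (Fin n → Factor K) × (Fin n × Fin K → ℝ) => logEdge m x p.1 p.2 := by
  refine (measurable_nestedMean m ?_).log
  exact measurable_edgeTerm.comp ((measurable_fst.comp measurable_fst).prodMk
    ((measurable_msgs hx.measurable).comp ((measurable_snd.comp measurable_fst).prodMk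
      measurable_snd)))

theorem abs_logSite_le (hx : IsTrial m x) {c : Fin n → Factor K × Fin K}
    (hpos : ∀ k, PosWeight (c k).1) (h : ℝ) (ω₀ : Fin n × Fin K → ℝ) :
    |logSite m x c h ω₀| ≤ Real.log 2 + ((∑ k, absTheta (c k).1) + |h|) := by
  set B := (∑ k, absTheta (c k).1) + |h| with hB
  have hb := nestedMean_mem m hx.pos (lo := 2 * Real.exp (-B)) (by positivity)
    (measurable_siteY hx c h ω₀) fun _ => siteTerm_mem hpos h fun _ => hx.bounded _
  have hp : 0 < nestedMean m fun ω => siteTerm c h (msgs x ω₀ ω) :=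
    lt_of_lt_of_le (by positivity) hb.1
  have e1 := Real.log_le_log (by positivity) hb.1
  have e2 := Real.log_le_log hp hb.2
  rw [Real.log_mul two_ne_zero (Real.exp_pos _).ne', Real.log_exp] at e1 e2
  have : 0 ≤ Real.log 2 := Real.log_nonneg one_le_two
  exact abs_le.2 ⟨by simp only [logSite]; linarith, by simp only [logSite]; linarith⟩

theorem abs_logEdge_le (hx : IsTrial m x) {c : Fin n → Factor K} (hpos : ∀ k, PosWeight (c k))
    (ω₀ : Fin n × Fin K → ℝ) : |logEdge m x c ω₀| ≤ ∑ k, absTheta (c k) := by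
  set B := ∑ k, absTheta (c k) with hB
  have hb := nestedMean_mem m hx.pos (Real.exp_pos (-B)) (measurable_edgeY hx c ω₀)
    fun _ => edgeTerm_mem hpos fun _ => hx.bounded _
  have hp : 0 < nestedMean m fun ω => edgeTerm c (msgs x ω₀ ω) :=
    lt_of_lt_of_le (by positivity) hb.1
  have e1 := Real.log_le_log (Real.exp_pos _) hb.1
  have e2 := Real.log_le_log hp hb.2
  rw [Real.log_exp] at e1 e2
  exact abs_le.2 ⟨by simp only [logEdge]; linarith, by simp only [logEdge]; linarith⟩

theorem logSite_le (hx : IsTrial m x) {c c' : Fin n → Factor K × Fin K}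
    (hpos : ∀ k, PosWeight (c k).1) (hpos' : ∀ k, PosWeight (c' k).1)
    (hl : ∀ k, (c k).2 = (c' k).2) (h h' : ℝ) {d : Fin n → ℝ}
    (hd : ∀ k σ, theta (c k).1 σ ≤ theta (c' k).1 σ + d k) (ω₀ : Fin n × Fin K → ℝ) :
    logSite m x c h ω₀ ≤ logSite m x c' h' ω₀ + ((∑ k, d k) + |h - h'|) :=
  log_nestedMean_le m hx.pos (mul_pos two_pos (Real.exp_pos _)) (mul_pos two_pos (Real.exp_pos _))
    (measurable_siteY hx c h ω₀) (measurable_siteY hx c' h' ω₀)
    (fun _ => siteTerm_mem hpos h fun _ => hx.bounded _)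
    (fun _ => siteTerm_mem hpos' h' fun _ => hx.bounded _)
    fun _ => siteTerm_le hpos hpos' hl h h' hd fun _ => hx.bounded _

theorem logEdge_le (hx : IsTrial m x) {c c' : Fin n → Factor K}
    (hpos : ∀ k, PosWeight (c k)) (hpos' : ∀ k, PosWeight (c' k)) {d : Fin n → ℝ}
    (hd : ∀ k σ, theta (c k) σ ≤ theta (c' k) σ + d k) (ω₀ : Fin n × Fin K → ℝ) :
    logEdge m x c ω₀ ≤ logEdge m x c' ω₀ + ∑ k, d k :=
  log_nestedMean_le m hx.pos (Real.exp_pos _) (Real.exp_pos _)
    (measurable_edgeY hx c ω₀) (measurable_edgeY hx c' ω₀)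
    (fun _ => edgeTerm_mem hpos fun _ => hx.bounded _)
    (fun _ => edgeTerm_mem hpos' fun _ => hx.bounded _)
    fun _ => edgeTerm_le hpos hpos' hd fun _ => hx.bounded _

end Vale.Agent.P168.Trunc
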