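import Vale.Agent.P168.Truncation.Nested

/-! Pointwise comparison of the partition function and of the cavity terms under a change of
factors and fields, and their measurability. -/

open MeasureTheory ProbabilityTheory
open scoped BigOperators NNReal ENNReal

noncomputable section

namespace Vale.Agent.P168.Trunc

variable {K N n : ℕ}

/-- All weights of a factor are positive. -/
def PosWeight (θ : Factor K) : Prop := ∀ σ, 0 < factorWeight θ σ

/-- The trivial factor. -/
def unitFactor (K : ℕ) : Factor K := (1, 0, 0)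

theorem factorWeight_unit (σ : Fin K → Bool) : factorWeight (unitFactor K) σ = 1 := by
  simp [factorWeight, unitFactor]

theorem theta_unit (σ : Fin K → Bool) : theta (unitFactor K) σ = 0 := by
  simp [theta, factorWeight_unit]

theorem posWeight_unit : PosWeight (unitFactor K) := fun σ => by
  simp [factorWeight_unit]

theorem factorWeight_le {θ θ' : Factor K} (hθ : PosWeight θ) (hθ' : PosWeight θ') {d : ℝ}
    {σ : Fin K → Bool} (h : theta θ σ ≤ theta θ' σ + d) :
    factorWeight θ σ ≤ Real.exp d * factorWeight θ' σ := by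
  calc factorWeight θ σ = Real.exp (theta θ σ) := (Real.exp_log (hθ σ)).symm
    _ ≤ Real.exp (theta θ' σ + d) := Real.exp_le_exp.2 h
    _ = _ := by rw [Real.exp_add, theta, Real.exp_log (hθ' σ), mul_comm]

theorem abs_spin (s : Bool) : |spin s| = 1 := by cases s <;> simp [spin]

/-- The probability `(1 + y s) / 2` of the spin `s`. -/
def spinProb (y : ℝ) (s : Bool) : ℝ := (1 + y * spin s) / 2

theorem spinProb_nonneg {y : ℝ} (hy : |y| ≤ 1) (s : Bool) : 0 ≤ spinProb y s := by
  cases s <;> simp [spinProb, spin] <;> linarith [abs_le.1 hy]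

theorem sum_spinProb (y : ℝ) : ∑ s, spinProb y s = 1 := by
  simp [spinProb, spin]; ring

theorem prob_mem_nonneg {y : Fin K → ℝ} (hy : ∀ j, |y j| ≤ 1) (S : Finset (Fin K))
    (σ : Fin K → Bool) : 0 ≤ ∏ j ∈ S, (1 + y j * spin (σ j)) / 2 :=
  Finset.prod_nonneg fun j _ => spinProb_nonneg (hy j) (σ j)

theorem sum_prob (y : Fin K → ℝ) : ∑ σ : Fin K → Bool, ∏ j, (1 + y j * spin (σ j)) / 2 = 1 := by
  have h := Fintype.prod_sum fun (j : Fin K) (s : Bool) => spinProb (y j) s
  simp only [sum_spinProb, Finset.prod_const_one] at h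
  exact h.symm

theorem sum_prob_erase (y : Fin K → ℝ) (l : Fin K) (ε : Bool) :
    ∑ σ : Fin K → Bool, (if σ l = ε then ∏ j ∈ Finset.univ.erase l, (1 + y j * spin (σ j)) / 2
      else 0) = 1 := by
  set v : Fin K → Bool → ℝ := fun j s =>
    if j = l then (if s = ε then 1 else 0) else spinProb (y j) s with hv
  have hsum : ∀ j, ∑ s, v j s = 1 := by
    intro j
    by_cases hj : j = l
    · simp [hv, hj]
    · simp only [hv, hj, if_false]
      exact sum_spinProb _
  have hprod : ∀ σ : Fin K → Bool, ∏ j, v j (σ j) =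
      if σ l = ε then ∏ j ∈ Finset.univ.erase l, (1 + y j * spin (σ j)) / 2 else 0 := by
    intro σ
    rw [← Finset.mul_prod_erase Finset.univ _ (Finset.mem_univ l)]
    have h2 : ∀ j ∈ Finset.univ.erase l, v j (σ j) = (1 + y j * spin (σ j)) / 2 := fun j hj => by
      simp [hv, Finset.ne_of_mem_erase hj, spinProb]
    rw [Finset.prod_congr rfl h2]
    simp [hv]
  have h := Fintype.prod_sum v
  simp only [hsum, Finset.prod_const_one] at h
  rw [← Finset.sum_congr rfl fun σ _ => hprod σ]
  exact h.symm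

/-- One factor of the site term. -/
def siteFactor (θ : Factor K) (l : Fin K) (ε : Bool) (y : Fin K → ℝ) : ℝ :=
  ∑ σ : Fin K → Bool, if σ l = ε then
    factorWeight θ σ * ∏ j ∈ Finset.univ.erase l, (1 + y j * spin (σ j)) / 2 else 0

/-- One factor of the edge term. -/
def edgeFactor (θ : Factor K) (y : Fin K → ℝ) : ℝ :=
  ∑ σ : Fin K → Bool, factorWeight θ σ * ∏ j, (1 + y j * spin (σ j)) / 2

theorem siteTerm_eq (c : Fin n → Factor K × Fin K) (h : ℝ) (y : Fin n × Fin K → ℝ) :
    siteTerm c h y =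
      ∑ ε : Bool, Real.exp (h * spin ε) * ∏ k, siteFactor (c k).1 (c k).2 ε fun j => y (k, j) :=
  rfl

theorem edgeTerm_eq (c : Fin n → Factor K) (y : Fin n × Fin K → ℝ) :
    edgeTerm c y = ∏ k, edgeFactor (c k) fun j => y (k, j) :=
  rfl

theorem siteFactor_nonneg {θ : Factor K} (hθ : PosWeight θ) (l : Fin K) (ε : Bool)
    {y : Fin K → ℝ} (hy : ∀ j, |y j| ≤ 1) : 0 ≤ siteFactor θ l ε y :=
  Finset.sum_nonneg fun σ _ => by
    split_ifs
    · exact mul_nonneg (hθ σ).le (prob_mem_nonneg hy _ σ)
    · exact le_rfl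

theorem edgeFactor_nonneg {θ : Factor K} (hθ : PosWeight θ) {y : Fin K → ℝ}
    (hy : ∀ j, |y j| ≤ 1) : 0 ≤ edgeFactor θ y :=
  Finset.sum_nonneg fun σ _ => mul_nonneg (hθ σ).le (prob_mem_nonneg hy _ σ)

theorem siteFactor_le {θ θ' : Factor K} (hθ : PosWeight θ) (hθ' : PosWeight θ') {d : ℝ}
    (hd : ∀ σ, theta θ σ ≤ theta θ' σ + d) (l : Fin K) (ε : Bool) {y : Fin K → ℝ}
    (hy : ∀ j, |y j| ≤ 1) : siteFactor θ l ε y ≤ Real.exp d * siteFactor θ' l ε y := by
  rw [siteFactor, siteFactor, Finset.mul_sum]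
  refine Finset.sum_le_sum fun σ _ => ?_
  split_ifs
  · rw [← mul_assoc]
    exact mul_le_mul_of_nonneg_right (factorWeight_le hθ hθ' (hd σ)) (prob_mem_nonneg hy _ σ)
  · simp

theorem edgeFactor_le {θ θ' : Factor K} (hθ : PosWeight θ) (hθ' : PosWeight θ') {d : ℝ}
    (hd : ∀ σ, theta θ σ ≤ theta θ' σ + d) {y : Fin K → ℝ} (hy : ∀ j, |y j| ≤ 1) :
    edgeFactor θ y ≤ Real.exp d * edgeFactor θ' y := by
  rw [edgeFactor, edgeFactor, Finset.mul_sum]
  refine Finset.sum_le_sum fun σ _ => ?_
  rw [← mul_assoc]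
  exact mul_le_mul_of_nonneg_right (factorWeight_le hθ hθ' (hd σ)) (prob_mem_nonneg hy _ σ)

theorem siteTerm_nonneg {c : Fin n → Factor K × Fin K} (hc : ∀ k, PosWeight (c k).1) (h : ℝ)
    {y : Fin n × Fin K → ℝ} (hy : ∀ i, |y i| ≤ 1) : 0 ≤ siteTerm c h y := by
  rw [siteTerm_eq]
  exact Finset.sum_nonneg fun ε _ => mul_nonneg (Real.exp_pos _).le
    (Finset.prod_nonneg fun k _ => siteFactor_nonneg (hc k) _ _ fun j => hy _)

theorem siteTerm_le {c c' : Fin n → Factor K × Fin K} (hpos : ∀ k, PosWeight (c k).1)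
    (hpos' : ∀ k, PosWeight (c' k).1) (hl : ∀ k, (c k).2 = (c' k).2) (h h' : ℝ) {d : Fin n → ℝ}
    (hd : ∀ k σ, theta (c k).1 σ ≤ theta (c' k).1 σ + d k) {y : Fin n × Fin K → ℝ}
    (hy : ∀ i, |y i| ≤ 1) :
    siteTerm c h y ≤ Real.exp ((∑ k, d k) + |h - h'|) * siteTerm c' h' y := by
  rw [siteTerm_eq, siteTerm_eq, Finset.mul_sum]
  refine Finset.sum_le_sum fun ε _ => ?_
  have h1 : Real.exp (h * spin ε) ≤ Real.exp |h - h'| * Real.exp (h' * spin ε) := by
    rw [← Real.exp_add]
    refine Real.exp_le_exp.2 ?_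
    have := le_abs_self ((h - h') * spin ε)
    rw [abs_mul, abs_spin, mul_one] at this
    linarith
  have h2 : ∏ k, siteFactor (c k).1 (c k).2 ε (fun j => y (k, j)) ≤
      Real.exp (∑ k, d k) * ∏ k, siteFactor (c' k).1 (c' k).2 ε (fun j => y (k, j)) := by
    rw [Real.exp_sum, ← Finset.prod_mul_distrib]
    refine Finset.prod_le_prod (fun k _ => siteFactor_nonneg (hpos k) _ _ fun j => hy _)
      fun k _ => ?_
    rw [hl k]
    exact siteFactor_le (hpos k) (hpos' k) (hd k) _ _ fun j => hy _
  calc _ ≤ (Real.exp |h - h'| * Real.exp (h' * spin ε)) *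
        (Real.exp (∑ k, d k) * ∏ k, siteFactor (c' k).1 (c' k).2 ε fun j => y (k, j)) :=
      mul_le_mul h1 h2 (Finset.prod_nonneg fun k _ => siteFactor_nonneg (hpos k) _ _ fun j => hy _)
        (mul_nonneg (Real.exp_pos _).le (Real.exp_pos _).le)
    _ = _ := by rw [Real.exp_add]; ring

theorem edgeTerm_le {c c' : Fin n → Factor K} (hpos : ∀ k, PosWeight (c k))
    (hpos' : ∀ k, PosWeight (c' k)) {d : Fin n → ℝ}
    (hd : ∀ k σ, theta (c k) σ ≤ theta (c' k) σ + d k) {y : Fin n × Fin K → ℝ}
    (hy : ∀ i, |y i| ≤ 1) :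
    edgeTerm c y ≤ Real.exp (∑ k, d k) * edgeTerm c' y := by
  rw [edgeTerm_eq, edgeTerm_eq, Real.exp_sum, ← Finset.prod_mul_distrib]
  exact Finset.prod_le_prod (fun k _ => edgeFactor_nonneg (hpos k) fun j => hy _)
    fun k _ => edgeFactor_le (hpos k) (hpos' k) (hd k) fun j => hy _

/-- `∑ σ, |θ(σ)|`. -/
def absTheta (θ : Factor K) : ℝ := ∑ σ, |theta θ σ|

theorem abs_theta_le (θ : Factor K) (σ : Fin K → Bool) : |theta θ σ| ≤ absTheta θ :=
  Finset.single_le_sum (f := fun σ => |theta θ σ|) (fun _ _ => abs_nonneg _) (Finset.mem_univ σ)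

theorem theta_le_unit (θ : Factor K) (σ : Fin K → Bool) :
    theta θ σ ≤ theta (unitFactor K) σ + absTheta θ := by
  rw [theta_unit, zero_add]
  exact (le_abs_self _).trans (abs_theta_le θ σ)

theorem unit_le_theta (θ : Factor K) (σ : Fin K → Bool) :
    theta (unitFactor K) σ ≤ theta θ σ + absTheta θ := by
  rw [theta_unit]
  linarith [neg_abs_le (theta θ σ), abs_theta_le θ σ]

theorem siteTerm_unit (l : Fin n → Fin K) (y : Fin n × Fin K → ℝ) :
    siteTerm (fun k => (unitFactor K, l k)) 0 y = 2 := by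
  have h : ∀ ε k, siteFactor (unitFactor K) (l k) ε (fun j => y (k, j)) = 1 := fun ε k => by
    simp only [siteFactor, factorWeight_unit, one_mul]
    exact sum_prob_erase _ _ _
  rw [siteTerm_eq]
  simp only [h]
  simp

theorem edgeTerm_unit (y : Fin n × Fin K → ℝ) :
    edgeTerm (fun _ : Fin n => unitFactor K) y = 1 := by
  have h : ∀ k, edgeFactor (unitFactor K) (fun j => y (k, j)) = 1 := fun k => by
    simp only [edgeFactor, factorWeight_unit, one_mul]
    exact sum_prob _
  rw [edgeTerm_eq]
  simp [h]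

/-- The range of the site term. -/
theorem siteTerm_mem {c : Fin n → Factor K × Fin K} (hpos : ∀ k, PosWeight (c k).1) (h : ℝ)
    {y : Fin n × Fin K → ℝ} (hy : ∀ i, |y i| ≤ 1) :
    siteTerm c h y ∈ Set.Icc (2 * Real.exp (-((∑ k, absTheta (c k).1) + |h|)))
      (2 * Real.exp ((∑ k, absTheta (c k).1) + |h|)) := by
  have hu : ∀ k : Fin n, PosWeight ((fun k => (unitFactor K, (c k).2)) k).1 := fun _ =>
    posWeight_unit
  constructor
  · have := siteTerm_le hu hpos (fun _ => rfl) 0 h (d := fun k => absTheta (c k).1)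
      (fun k σ => unit_le_theta (c k).1 σ) hy
    rw [siteTerm_unit, zero_sub, abs_neg] at this
    rw [Real.exp_neg]
    calc 2 * (Real.exp ((∑ k, absTheta (c k).1) + |h|))⁻¹ ≤
        (Real.exp ((∑ k, absTheta (c k).1) + |h|) * siteTerm c h y) *
          (Real.exp ((∑ k, absTheta (c k).1) + |h|))⁻¹ :=
        mul_le_mul_of_nonneg_right this (by positivity)
      _ = _ := by field_simp
  · have := siteTerm_le hpos hu (fun _ => rfl) h 0 (d := fun k => absTheta (c k).1)
      (fun k σ => theta_le_unit (c k).1 σ) hy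
    rw [siteTerm_unit, sub_zero] at this
    linarith

/-- The range of the edge term. -/
theorem edgeTerm_mem {c : Fin n → Factor K} (hpos : ∀ k, PosWeight (c k))
    {y : Fin n × Fin K → ℝ} (hy : ∀ i, |y i| ≤ 1) :
    edgeTerm c y ∈ Set.Icc (Real.exp (-∑ k, absTheta (c k)))
      (Real.exp (∑ k, absTheta (c k))) := by
  have hu : ∀ _k : Fin n, PosWeight (unitFactor K) := fun _ => posWeight_unit
  constructor
  · have := edgeTerm_le hu hpos (d := fun k => absTheta (c k))
      (fun k σ => unit_le_theta (c k) σ) hy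
    rw [edgeTerm_unit] at this
    rw [Real.exp_neg, inv_le_iff_one_le_mul₀ (Real.exp_pos _)]
    linarith
  · have := edgeTerm_le hpos hu (d := fun k => absTheta (c k))
      (fun k σ => theta_le_unit (c k) σ) hy
    rw [edgeTerm_unit, mul_one] at this
    exact this

/-! The partition function. -/

theorem logPartition_le (c c' : Fin n → Factor K × (Fin K → Fin N))
    (hl : ∀ k, (c k).2 = (c' k).2) (h h' : Fin N → ℝ) {d : Fin n → ℝ}
    (hd : ∀ k σ, theta (c k).1 σ ≤ theta (c' k).1 σ + d k) :
    logPartition c h ≤ logPartition c' h' + ((∑ k, d k) + ∑ i, |h i - h' i|) := by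
  set D := (∑ k, d k) + ∑ i, |h i - h' i| with hD
  have hH : ∀ σ, hamiltonian c h σ ≤ hamiltonian c' h' σ + D := by
    intro σ
    have h1 : ∑ k, theta (c k).1 (fun j => σ ((c k).2 j)) ≤
        (∑ k, theta (c' k).1 (fun j => σ ((c' k).2 j))) + ∑ k, d k := by
      rw [← Finset.sum_add_distrib]
      refine Finset.sum_le_sum fun k _ => ?_
      rw [hl k]
      exact hd k _
    have h2 : ∑ i, h i * spin (σ i) ≤
        (∑ i, h' i * spin (σ i)) + ∑ i, |h i - h' i| := by
      rw [← Finset.sum_add_distrib]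
      refine Finset.sum_le_sum fun i _ => ?_
      have := le_abs_self ((h i - h' i) * spin (σ i))
      rw [abs_mul, abs_spin, mul_one] at this
      linarith
    simp only [hamiltonian, hD]
    linarith
  have hp : ∀ (c : Fin n → Factor K × (Fin K → Fin N)) (h : Fin N → ℝ),
      0 < ∑ σ : Fin N → Bool, Real.exp (hamiltonian c h σ) := fun c h =>
    Finset.sum_pos (fun σ _ => Real.exp_pos _) Finset.univ_nonempty
  calc logPartition c h ≤
      Real.log (Real.exp D * ∑ σ : Fin N → Bool, Real.exp (hamiltonian c' h' σ)) := by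
        refine Real.log_le_log (hp c h) ?_
        rw [Finset.mul_sum]
        refine Finset.sum_le_sum fun σ _ => ?_
        rw [← Real.exp_add]
        exact Real.exp_le_exp.2 (by linarith [hH σ])
    _ = _ := by
        rw [Real.log_mul (Real.exp_pos D).ne' (hp c' h').ne', Real.log_exp, logPartition]
        ring

theorem logPartition_unit (l : Fin n → Fin K → Fin N) :
    logPartition (fun k => (unitFactor K, l k)) (0 : Fin N → ℝ) = N * Real.log 2 := by
  simp [logPartition, hamiltonian, theta_unit]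

theorem abs_logPartition_le (c : Fin n → Factor K × (Fin K → Fin N)) (h : Fin N → ℝ) :
    |logPartition c h| ≤ N * Real.log 2 + ((∑ k, absTheta (c k).1) + ∑ i, |h i|) := by
  have h1 := logPartition_le c (fun k => (unitFactor K, (c k).2)) (fun _ => rfl) h 0
    (d := fun k => absTheta (c k).1) fun k σ => theta_le_unit (c k).1 σ
  have h2 := logPartition_le (fun k => (unitFactor K, (c k).2)) c (fun _ => rfl) 0 h
    (d := fun k => absTheta (c k).1) fun k σ => unit_le_theta (c k).1 σ
  simp only [logPartition_unit, Pi.zero_apply, sub_zero, zero_sub, abs_neg] at h1 h2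
  have h3 : 0 ≤ (N : ℝ) * Real.log 2 := by positivity
  exact abs_le.2 ⟨by linarith, by linarith⟩

/-! Measurability. -/

theorem measurable_factorWeight (σ : Fin K → Bool) :
    Measurable fun θ : Factor K => factorWeight θ σ := by
  unfold factorWeight
  fun_prop

theorem measurable_theta (σ : Fin K → Bool) : Measurable fun θ : Factor K => theta θ σ :=
  (measurable_factorWeight σ).log

theorem measurable_absTheta : Measurable (absTheta : Factor K → ℝ) :=
  Finset.measurable_sum _ fun σ _ => continuous_abs.measurable.comp (measurable_theta σ)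

theorem measurable_logPartition :
    Measurable fun p : (Fin n → Factor K × (Fin K → Fin N)) × (Fin N → ℝ) =>
      logPartition p.1 p.2 := by
  have hk : ∀ σ : Fin N → Bool, Measurable fun q : Factor K × (Fin K → Fin N) =>
      theta q.1 fun j => σ (q.2 j) := fun σ =>
    measurable_from_prod_countable_left fun (i : Fin K → Fin N) =>
      measurable_theta (fun j => σ (i j))
  have hH : ∀ σ : Fin N → Bool,
      Measurable fun p : (Fin n → Factor K × (Fin K → Fin N)) × (Fin N → ℝ) =>
        hamiltonian p.1 p.2 σ := by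
    intro σ
    have h1 : ∀ k : Fin n, Measurable fun p : (Fin n → Factor K × (Fin K → Fin N)) × (Fin N → ℝ) =>
        theta (p.1 k).1 fun j => σ ((p.1 k).2 j) := fun k =>
      (hk σ).comp ((measurable_pi_apply k).comp measurable_fst)
    have h2 : ∀ i : Fin N, Measurable fun p : (Fin n → Factor K × (Fin K → Fin N)) × (Fin N → ℝ) =>
        p.2 i * spin (σ i) := fun i => by fun_prop
    exact (Finset.measurable_sum Finset.univ fun k _ => h1 k).add
      (Finset.measurable_sum Finset.univ fun i _ => h2 i)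
  exact (Finset.measurable_sum Finset.univ fun σ _ => Real.measurable_exp.comp (hH σ)).log

theorem measurable_siteTerm :
    Measurable fun p : ((Fin n → Factor K × Fin K) × ℝ) × (Fin n × Fin K → ℝ) =>
      siteTerm p.1.1 p.1.2 p.2 := by
  have hS : ∀ ε : Bool, Measurable fun q : (Factor K × (Fin K → ℝ)) × Fin K =>
      siteFactor q.1.1 q.2 ε q.1.2 := by
    intro ε
    refine measurable_from_prod_countable_left fun l => ?_
    refine Finset.measurable_sum _ fun σ _ => ?_
    by_cases hσ : σ l = ε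
    · simp only [hσ, if_true]
      exact ((measurable_factorWeight σ).comp measurable_fst).mul (by fun_prop)
    · simp only [hσ, if_false]
      exact measurable_const
  simp only [siteTerm_eq]
  refine Finset.measurable_sum _ fun ε _ => Measurable.mul ?_ ?_
  · exact Real.measurable_exp.comp ((measurable_snd.comp measurable_fst).mul_const _)
  · refine Finset.measurable_prod _ fun k _ => ?_
    have hsel : Measurable fun p : ((Fin n → Factor K × Fin K) × ℝ) × (Fin n × Fin K → ℝ) =>
        (((p.1.1 k).1, fun j : Fin K => p.2 (k, j)), (p.1.1 k).2) := by fun_prop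
    exact (hS ε).comp hsel

theorem measurable_edgeTerm :
    Measurable fun p : (Fin n → Factor K) × (Fin n × Fin K → ℝ) => edgeTerm p.1 p.2 := by
  unfold edgeTerm
  refine Finset.measurable_prod _ fun k _ => Finset.measurable_sum _ fun σ _ => ?_
  exact ((measurable_factorWeight σ).comp ((measurable_pi_apply k).comp measurable_fst)).mul
    (by fun_prop)

end Vale.Agent.P168.Trunc
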