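import Vale.Agent.P168.Statements
import Vale.Agent.P168.Truncation.Terms

/-! The bounded model obtained from a model by setting `a = 1`, scaling `b` by `c < 1` and
clipping the field, and the error made by it. -/

open MeasureTheory ProbabilityTheory Filter
open scoped BigOperators NNReal ENNReal Topology

noncomputable section

namespace Vale.Agent.P168.Trunc

variable {K : ℕ}

/-- The almost sure bounds on a factor of a model. -/
def GoodFactor (θ : Factor K) : Prop := 0 < θ.1 ∧ |θ.2.1| < 1 ∧ ∀ j s, |θ.2.2 j s| ≤ 1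

/-- `b ∏ f_j(σ_j)`. -/
def tilt (θ : Factor K) (σ : Fin K → Bool) : ℝ := θ.2.1 * ∏ j, θ.2.2 j (σ j)

/-- Replace `a` by `1` and `b` by `c b`. -/
def strip (c : ℝ) (θ : Factor K) : Factor K := (1, c * θ.2.1, θ.2.2)

/-- The reference configuration. -/
def refConf : Fin K → Bool := fun _ => true

/-- The shift of `θ` removed by `strip c`. -/
def shift (c : ℝ) (θ : Factor K) : ℝ := theta θ refConf - Real.log (1 + c * tilt θ refConf)

/-- The error of `strip c`. -/
def stripErr (c : ℝ) (θ : Factor K) : ℝ :=
  ∑ σ : Fin K → Bool, |theta θ σ - theta (strip c θ) σ - shift c θ|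

/-- Clipping of a field. -/
def clip (H h : ℝ) : ℝ := max (-H) (min H h)

theorem abs_tilt_lt {θ : Factor K} (h : GoodFactor θ) (σ : Fin K → Bool) : |tilt θ σ| < 1 := by
  rw [tilt, abs_mul, Finset.abs_prod]
  calc |θ.2.1| * ∏ j, |θ.2.2 j (σ j)| ≤ |θ.2.1| * 1 :=
        mul_le_mul_of_nonneg_left
          (Finset.prod_le_one (fun _ _ => abs_nonneg _) fun j _ => h.2.2 j _) (abs_nonneg _)
    _ < 1 := by simpa using h.2.1

theorem GoodFactor.posWeight {θ : Factor K} (h : GoodFactor θ) : PosWeight θ := fun σ => by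
  have := abs_lt.1 (abs_tilt_lt h σ)
  exact mul_pos h.1 (by change 0 < 1 + tilt θ σ; linarith [this.1])

theorem theta_eq {θ : Factor K} (h : GoodFactor θ) (σ : Fin K → Bool) :
    theta θ σ = Real.log θ.1 + Real.log (1 + tilt θ σ) := by
  have := abs_lt.1 (abs_tilt_lt h σ)
  exact Real.log_mul h.1.ne' (by change 1 + tilt θ σ ≠ 0; linarith [this.1])

theorem goodFactor_strip {c : ℝ} (h0 : 0 ≤ c) (h1 : c ≤ 1) {θ : Factor K} (h : GoodFactor θ) :
    GoodFactor (strip c θ) := by
  refine ⟨zero_lt_one, ?_, h.2.2⟩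
  show |c * θ.2.1| < 1
  rw [abs_mul, abs_of_nonneg h0]
  exact lt_of_le_of_lt (mul_le_of_le_one_left (abs_nonneg _) h1) h.2.1

theorem theta_strip (c : ℝ) (θ : Factor K) (σ : Fin K → Bool) :
    theta (strip c θ) σ = Real.log (1 + c * tilt θ σ) := by
  simp [theta, factorWeight, strip, tilt, mul_assoc]

theorem abs_log_one_add_le {c y : ℝ} (h0 : 0 ≤ c) (h1 : c < 1) (hy : |y| < 1) :
    |Real.log (1 + c * y)| ≤ Real.log 2 - Real.log (1 - c) := by
  have hcy : |c * y| ≤ c := by
    rw [abs_mul, abs_of_nonneg h0]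
    exact mul_le_of_le_one_right h0 hy.le
  have hl : (1 - c : ℝ) ≤ 1 + c * y := by linarith [(abs_le.1 hcy).1]
  have hu : 1 + c * y ≤ 2 := by linarith [(abs_le.1 hcy).2]
  have e1 := Real.log_le_log (by linarith) hl
  have e2 := Real.log_le_log (by linarith) hu
  have e3 : Real.log (1 - c) ≤ 0 := Real.log_nonpos (by linarith) (by linarith)
  have e4 : 0 ≤ Real.log 2 := Real.log_nonneg (by norm_num)
  exact abs_le.2 ⟨by linarith, by linarith⟩

theorem abs_logdiff_le {c y y0 : ℝ} (h0 : 0 ≤ c) (h1 : c ≤ 1) (hy : |y| < 1) (hy0 : |y0| < 1) :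
    |(Real.log (1 + y) - Real.log (1 + y0)) - (Real.log (1 + c * y) - Real.log (1 + c * y0))| ≤
      |Real.log (1 + y) - Real.log (1 + y0)| := by
  have aux : ∀ y y0 : ℝ, |y| < 1 → |y0| < 1 → y0 ≤ y →
      0 ≤ Real.log (1 + c * y) - Real.log (1 + c * y0) ∧
      Real.log (1 + c * y) - Real.log (1 + c * y0) ≤ Real.log (1 + y) - Real.log (1 + y0) := by
    intro y y0 hy hy0 hle
    have hy' := abs_lt.1 hy
    have hy0' := abs_lt.1 hy0
    have p1 : 0 < 1 + y := by linarith
    have p2 : 0 < 1 + y0 := by linarith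
    have p3 : 0 < 1 + c * y := by nlinarith
    have p4 : 0 < 1 + c * y0 := by nlinarith
    refine ⟨sub_nonneg.2 (Real.log_le_log p4 (by nlinarith)), ?_⟩
    have h := Real.log_le_log (mul_pos p3 p2)
      (show (1 + c * y) * (1 + y0) ≤ (1 + y) * (1 + c * y0) by nlinarith)
    rw [Real.log_mul p3.ne' p2.ne', Real.log_mul p1.ne' p4.ne'] at h
    linarith
  rcases le_total y0 y with h | h
  · obtain ⟨a1, a2⟩ := aux y y0 hy hy0 h
    rw [abs_of_nonneg (sub_nonneg.2 a2), abs_of_nonneg (a1.trans a2)]
    linarith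
  · obtain ⟨a1, a2⟩ := aux y0 y hy0 hy h
    rw [abs_of_nonpos (by linarith), abs_of_nonpos (by linarith)]
    linarith

theorem stripErr_le {c : ℝ} (h0 : 0 ≤ c) (h1 : c ≤ 1) {θ : Factor K} (h : GoodFactor θ) :
    stripErr c θ ≤ ∑ σ : Fin K → Bool, (|theta θ σ| + |theta θ refConf|) := by
  refine Finset.sum_le_sum fun σ _ => ?_
  refine le_trans ?_ (abs_sub (theta θ σ) (theta θ refConf))
  rw [shift, theta_strip, theta_eq h σ, theta_eq h refConf]
  refine le_trans (le_of_eq ?_) (le_trans
    (abs_logdiff_le h0 h1 (abs_tilt_lt h σ) (abs_tilt_lt h refConf)) (le_of_eq ?_))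
  · congr 1; ring
  · congr 1; ring

theorem tendsto_stripErr {θ : Factor K} (h : GoodFactor θ) {cs : ℕ → ℝ}
    (hc : Tendsto cs atTop (𝓝 1)) :
    Tendsto (fun j => stripErr (cs j) θ) atTop (𝓝 0) := by
  have key : ∀ σ : Fin K → Bool,
      Tendsto (fun j => |theta θ σ - theta (strip (cs j) θ) σ - shift (cs j) θ|) atTop (𝓝 0) := by
    intro σ
    have l : ∀ s : Fin K → Bool, Tendsto (fun j => Real.log (1 + cs j * tilt θ s)) atTop
        (𝓝 (Real.log (1 + tilt θ s))) := fun s => by
      have hne : 1 + tilt θ s ≠ 0 := by linarith [(abs_lt.1 (abs_tilt_lt h s)).1]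
      have := (hc.mul_const (tilt θ s)).const_add 1
      rw [one_mul] at this
      exact this.log hne
    have ht := (((l σ).const_sub (theta θ σ)).sub ((l refConf).const_sub (theta θ refConf))).abs
    have e : |theta θ σ - Real.log (1 + tilt θ σ) -
        (theta θ refConf - Real.log (1 + tilt θ refConf))| = 0 := by
      rw [theta_eq h σ, theta_eq h refConf]; simp
    rw [e] at ht
    refine ht.congr fun j => ?_
    rw [theta_strip, shift]
  simpa [stripErr] using tendsto_finsetSum Finset.univ fun σ _ => key σ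

theorem measurable_strip (c : ℝ) : Measurable (strip c : Factor K → Factor K) := by
  unfold strip
  fun_prop

theorem measurable_tilt (σ : Fin K → Bool) : Measurable fun θ : Factor K => tilt θ σ := by
  unfold tilt
  fun_prop

theorem measurable_shift (c : ℝ) : Measurable (shift c : Factor K → ℝ) :=
  (measurable_theta _).sub ((((measurable_tilt _).const_mul c).const_add 1).log)

theorem measurable_stripErr (c : ℝ) : Measurable (stripErr c : Factor K → ℝ) :=
  Finset.measurable_sum _ fun σ _ => continuous_abs.measurable.comp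
    (((measurable_theta σ).sub ((measurable_theta σ).comp (measurable_strip c))).sub
      (measurable_shift c))

theorem measurable_clip (H : ℝ) : Measurable (clip H) := by
  unfold clip
  fun_prop

theorem abs_clip_le {H : ℝ} (hH : 0 ≤ H) (h : ℝ) : |clip H h| ≤ H :=
  abs_le.2 ⟨le_max_left _ _, max_le (by linarith) (min_le_left _ _)⟩

theorem abs_sub_clip_le {H : ℝ} (hH : 0 ≤ H) (h : ℝ) : |h - clip H h| ≤ |h| := by
  rcases le_total H h with h1 | h1
  · rw [clip, min_eq_left h1, max_eq_right (by linarith), abs_of_nonneg (by linarith),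
      abs_of_nonneg (hH.trans h1)]
    linarith
  · rw [clip, min_eq_right h1]
    rcases le_total (-H) h with h2 | h2
    · rw [max_eq_right h2]
      simp
    · rw [max_eq_left h2, abs_of_nonpos (by linarith), abs_of_nonpos (by linarith : h ≤ 0)]
      linarith

theorem clip_eventually (h : ℝ) : ∀ᶠ j : ℕ in atTop, clip (j : ℝ) h = h := by
  filter_upwards [eventually_ge_atTop ⌈|h|⌉₊] with j hj
  have : |h| ≤ j := (Nat.le_ceil _).trans (by exact_mod_cast hj)
  rw [clip, min_eq_right (abs_le.1 this).2, max_eq_right (abs_le.1 this).1]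

variable {P : Measure (Factor K)} {Q : Measure ℝ}

theorem ae_good (hM : IsModel P Q) : ∀ᵐ θ ∂P, GoodFactor θ := hM.bounds

theorem integrable_absTheta (hM : IsModel P Q) : Integrable absTheta P :=
  integrable_finsetSum _ fun σ _ => (hM.integrable_theta σ).abs

theorem integrable_theta_strip (hM : IsModel P Q) {c : ℝ} (h0 : 0 ≤ c) (h1 : c < 1)
    (σ : Fin K → Bool) : Integrable (fun θ => theta (strip c θ) σ) P := by
  have := hM.prob_factor
  refine (integrable_const (Real.log 2 - Real.log (1 - c))).mono'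
    ((measurable_theta σ).comp (measurable_strip c)).aestronglyMeasurable ?_
  filter_upwards [ae_good hM] with θ hθ
  rw [theta_strip, Real.norm_eq_abs]
  exact abs_log_one_add_le h0 h1 (abs_tilt_lt hθ σ)

theorem integrable_shift (hM : IsModel P Q) {c : ℝ} (h0 : 0 ≤ c) (h1 : c < 1) :
    Integrable (shift c) P := by
  refine ((hM.integrable_theta refConf).sub (integrable_theta_strip hM h0 h1 refConf)).congr
    (Eventually.of_forall fun θ => ?_)
  simp [shift, theta_strip]

theorem integrable_stripErr (hM : IsModel P Q) {c : ℝ} (h0 : 0 ≤ c) (h1 : c < 1) :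
    Integrable (stripErr c) P :=
  integrable_finsetSum _ fun σ _ =>
    (((hM.integrable_theta σ).sub (integrable_theta_strip hM h0 h1 σ)).sub
      (integrable_shift hM h0 h1)).abs

theorem ae_strip_good (hM : IsModel P Q) {c : ℝ} (h0 : 0 ≤ c) (h1 : c ≤ 1) :
    ∀ᵐ θ ∂P.map (strip c), GoodFactor θ ∧ θ.1 = 1 ∧ |θ.2.1| ≤ c := by
  have hset : MeasurableSet {θ : Factor K | GoodFactor θ ∧ θ.1 = 1 ∧ |θ.2.1| ≤ c} := by
    unfold GoodFactor
    refine measurableSet_setOfPred.2 ?_
    fun_prop
  refine (ae_map_iff (measurable_strip c).aemeasurable hset).2 ?_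
  filter_upwards [ae_good hM] with θ hθ
  refine ⟨goodFactor_strip h0 h1 hθ, rfl, ?_⟩
  show |c * θ.2.1| ≤ c
  rw [abs_mul, abs_of_nonneg h0]
  exact mul_le_of_le_one_right h0 hθ.2.1.le

/-- The truncated model is bounded. -/
theorem isBoundedModel_trunc (hM : IsModel P Q) {c H : ℝ} (h0 : 0 ≤ c) (h1 : c < 1)
    (hH : 0 ≤ H) : IsBoundedModel (P.map (strip c)) (Q.map (clip H)) c H := by
  have := hM.prob_factor
  have := hM.prob_field
  have hg := ae_strip_good hM h0 h1.le
  have hQ : ∀ᵐ h ∂Q.map (clip H), |h| ≤ H :=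
    (ae_map_iff (measurable_clip H).aemeasurable
      (measurableSet_le continuous_abs.measurable measurable_const)).2
      (Eventually.of_forall (abs_clip_le hH))
  have hpQ : IsProbabilityMeasure (Q.map (clip H)) :=
    Measure.isProbabilityMeasure_map (measurable_clip H).aemeasurable
  refine
    { prob_factor := Measure.isProbabilityMeasure_map (measurable_strip c).aemeasurable
      prob_field := hpQ
      bounds := ?_
      indep := ?_
      positivity := ?_
      integrable_theta := ?_
      integrable_field := ?_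
      c_lt := h1
      scale_one := ?_
      b_le := ?_
      h_le := hQ }
  · exact hg.mono fun θ h => h.1
  · obtain ⟨νb, νf, hνb, hνf, hprod⟩ := hM.indep
    have hm : Measurable fun b : ℝ => c * b := measurable_const_mul c
    refine ⟨νb.map (fun b => c * b), νf, Measure.isProbabilityMeasure_map hm.aemeasurable, hνf, ?_⟩
    have := hνb
    have := hνf
    have e1 : (P.map (strip c)).map Prod.snd =
        (P.map Prod.snd).map (Prod.map (fun b => c * b) id) := by
      rw [Measure.map_map measurable_snd (measurable_strip c),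
        Measure.map_map (hm.prodMap measurable_id) measurable_snd]
      rfl
    rw [e1, hprod, ← Measure.map_prod_map _ _ hm measurable_id, Measure.map_id]
  · intro n hn
    rw [integral_map (measurable_strip c).aemeasurable (by fun_prop)]
    have e : ∀ θ : Factor K, (-(strip c θ).2.1) ^ n = c ^ n * (-θ.2.1) ^ n := fun θ => by
      rw [← mul_pow]; simp [strip]
    simp only [e, integral_const_mul]
    exact mul_nonneg (pow_nonneg h0 n) (hM.positivity n hn)
  · intro σ
    exact (integrable_map_measure (measurable_theta σ).aestronglyMeasurable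
      (measurable_strip c).aemeasurable).2 (integrable_theta_strip hM h0 h1 σ)
  · exact (integrable_const H).mono' aestronglyMeasurable_id hQ
  · exact hg.mono fun θ h => h.2.1
  · exact hg.mono fun θ h => h.2.2

/-- The error vanishes in mean. -/
theorem tendsto_integral_stripErr (hM : IsModel P Q) {cs : ℕ → ℝ} (h0 : ∀ j, 0 ≤ cs j)
    (h1 : ∀ j, cs j ≤ 1) (hc : Tendsto cs atTop (𝓝 1)) :
    Tendsto (fun j => ∫ θ, stripErr (cs j) θ ∂P) atTop (𝓝 0) := by
  have := tendsto_integral_of_dominated_convergence (μ := P)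
    (F := fun j θ => stripErr (cs j) θ) (f := fun _ => (0 : ℝ))
    (fun θ => ∑ σ : Fin K → Bool, (|theta θ σ| + |theta θ refConf|))
    (fun j => (measurable_stripErr _).aestronglyMeasurable)
    (integrable_finsetSum _ fun σ _ =>
      (hM.integrable_theta σ).abs.add (hM.integrable_theta refConf).abs)
    (fun j => by
      filter_upwards [ae_good hM] with θ hθ
      rw [Real.norm_eq_abs, abs_of_nonneg (Finset.sum_nonneg fun _ _ => abs_nonneg _)]
      exact stripErr_le (h0 j) (h1 j) hθ)
    (by filter_upwards [ae_good hM] with θ hθ using tendsto_stripErr hθ hc)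
  simpa using this

/-- The clipping error vanishes in mean. -/
theorem tendsto_integral_clip (hM : IsModel P Q) :
    Tendsto (fun j : ℕ => ∫ h, |h - clip (j : ℝ) h| ∂Q) atTop (𝓝 0) := by
  have := tendsto_integral_of_dominated_convergence (μ := Q)
    (F := fun (j : ℕ) h => |h - clip (j : ℝ) h|) (f := fun _ => (0 : ℝ)) (fun h => |h|)
    (fun j => ((measurable_id.sub (measurable_clip _)).abs).aestronglyMeasurable)
    hM.integrable_field.abs
    (fun j => Eventually.of_forall fun h => by
      rw [Real.norm_eq_abs, abs_abs]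
      exact abs_sub_clip_le (Nat.cast_nonneg j) h)
    (Eventually.of_forall fun h => tendsto_const_nhds.congr' <| by
      filter_upwards [clip_eventually h] with j hj
      simp [hj])
  simpa using this

end Vale.Agent.P168.Trunc
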