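import Vale.Agent.P168.Defs

/-! Nested means: measurability in parameters, bounds and comparison. -/

open MeasureTheory ProbabilityTheory
open scoped BigOperators NNReal ENNReal

noncomputable section

namespace Vale.Agent.P168.Trunc

theorem isProbabilityMeasure_unif : IsProbabilityMeasure unif :=
  ⟨by simp [unif]⟩

attribute [local instance] isProbabilityMeasure_unif

variable {ι : Type} [Fintype ι]

omit [Fintype ι] in
theorem measurable_consMsgs {r : ℕ} :
    Measurable fun p : (ι → ℝ) × (ι → Fin r → ℝ) =>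
      fun i => (Fin.cons (p.1 i) (p.2 i) : Fin (r + 1) → ℝ) := by
  refine measurable_pi_iff.2 fun i => measurable_pi_iff.2 fun j => ?_
  refine Fin.cases ?_ ?_ j
  · simp only [Fin.cons_zero]
    fun_prop
  · intro k
    simp only [Fin.cons_succ]
    fun_prop

theorem measurable_nestedMean {r : ℕ} (m : Fin r → ℝ) {A : Type} [MeasurableSpace A]
    {Y : A → (ι → Fin r → ℝ) → ℝ} (hY : Measurable (Function.uncurry Y)) :
    Measurable fun a => nestedMean m (Y a) := by
  induction r generalizing A with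
  | zero =>
    simp only [nestedMean]
    exact hY.comp (measurable_id.prodMk measurable_const)
  | succ r ih =>
    have hYin : Measurable (Function.uncurry fun (p : A × (ι → ℝ)) (ω : ι → Fin r → ℝ) =>
        Y p.1 fun i => Fin.cons (p.2 i) (ω i)) := by
      have h1 : Measurable fun q : (A × (ι → ℝ)) × (ι → Fin r → ℝ) =>
          (q.1.1, fun i => (Fin.cons (q.1.2 i) (q.2 i) : Fin (r + 1) → ℝ)) :=
        (measurable_fst.comp measurable_fst).prodMk (measurable_consMsgs.comp
          ((measurable_snd.comp measurable_fst).prodMk measurable_snd))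
      exact hY.comp h1
    have hG := (ih (Fin.tail m) hYin).pow_const (m 0)
    have hI := (hG.stronglyMeasurable.integral_prod_right'
      (ν := Measure.pi fun _ : ι => unif)).measurable
    simp only [nestedMean]
    exact hI.pow_const _

/-- The inner nested mean, as a function of the first level. -/
theorem measurable_inner {r : ℕ} (m : Fin r → ℝ) {Y : (ι → Fin (r + 1) → ℝ) → ℝ}
    (hY : Measurable Y) :
    Measurable fun w : ι → ℝ => nestedMean m fun ω => Y fun i => Fin.cons (w i) (ω i) :=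
  measurable_nestedMean m (hY.comp measurable_consMsgs)

theorem nestedMean_mem {r : ℕ} (m : Fin r → ℝ) (hm : ∀ i, 0 < m i) {lo hi : ℝ} (hlo : 0 < lo)
    {Y : (ι → Fin r → ℝ) → ℝ} (hY : Measurable Y) (hb : ∀ ω, Y ω ∈ Set.Icc lo hi) :
    nestedMean m Y ∈ Set.Icc lo hi := by
  induction r with
  | zero => exact hb _
  | succ r ih =>
    set G := fun w : ι → ℝ => nestedMean (Fin.tail m) fun ω => Y fun i => Fin.cons (w i) (ω i)
    have hG : ∀ w, G w ∈ Set.Icc lo hi := fun w =>
      ih (Fin.tail m) (fun i => hm i.succ)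
        (hY.comp (measurable_consMsgs.comp (measurable_const.prodMk measurable_id)))
        (fun ω => hb _)
    have hhi : 0 ≤ hi := hlo.le.trans ((hG (fun _ => 0)).1.trans (hG (fun _ => 0)).2)
    have hp : ∀ w, (G w) ^ m 0 ∈ Set.Icc (lo ^ m 0) (hi ^ m 0) := fun w =>
      ⟨Real.rpow_le_rpow hlo.le (hG w).1 (hm 0).le,
        Real.rpow_le_rpow (hlo.le.trans (hG w).1) (hG w).2 (hm 0).le⟩
    have hint : Integrable (fun w => (G w) ^ m 0) (Measure.pi fun _ : ι => unif) :=
      Integrable.of_mem_Icc _ _ ((measurable_inner _ hY).pow_const _).aemeasurable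
        (Filter.Eventually.of_forall hp)
    have h1 : lo ^ m 0 ≤ ∫ w, (G w) ^ m 0 ∂(Measure.pi fun _ : ι => unif) := by
      simpa using integral_mono (integrable_const _) hint fun w => (hp w).1
    have h2 : ∫ w, (G w) ^ m 0 ∂(Measure.pi fun _ : ι => unif) ≤ hi ^ m 0 := by
      simpa using integral_mono hint (integrable_const _) fun w => (hp w).2
    have hlop : 0 ≤ lo ^ m 0 := Real.rpow_nonneg hlo.le _
    have hinv : 0 ≤ 1 / m 0 := (one_div_pos.2 (hm 0)).le
    have e : ∀ t : ℝ, 0 ≤ t → (t ^ m 0) ^ (1 / m 0) = t := fun t ht => by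
      rw [one_div, Real.rpow_rpow_inv ht (hm 0).ne']
    simp only [nestedMean]
    constructor
    · calc lo = (lo ^ m 0) ^ (1 / m 0) := (e lo hlo.le).symm
        _ ≤ _ := Real.rpow_le_rpow hlop h1 hinv
    · calc _ ≤ (hi ^ m 0) ^ (1 / m 0) := Real.rpow_le_rpow (hlop.trans h1) h2 hinv
        _ = hi := e hi hhi

theorem nestedMean_le_mul {r : ℕ} (m : Fin r → ℝ) (hm : ∀ i, 0 < m i) {lo hi lo' hi' C : ℝ}
    (hlo : 0 < lo) (hlo' : 0 < lo') (hC : 0 < C) {Y Y' : (ι → Fin r → ℝ) → ℝ}
    (hY : Measurable Y) (hY' : Measurable Y') (hb : ∀ ω, Y ω ∈ Set.Icc lo hi)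
    (hb' : ∀ ω, Y' ω ∈ Set.Icc lo' hi') (hle : ∀ ω, Y ω ≤ C * Y' ω) :
    nestedMean m Y ≤ C * nestedMean m Y' := by
  induction r with
  | zero => exact hle _
  | succ r ih =>
    have hm' : ∀ i, 0 < Fin.tail m i := fun i => hm i.succ
    have hc : ∀ w : ι → ℝ, Measurable fun ω : ι → Fin r → ℝ =>
        (fun i => (Fin.cons (w i) (ω i) : Fin (r + 1) → ℝ)) := fun w =>
      measurable_consMsgs.comp (measurable_const.prodMk measurable_id)
    set G := fun w : ι → ℝ => nestedMean (Fin.tail m) fun ω => Y fun i => Fin.cons (w i) (ω i)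
    set G' := fun w : ι → ℝ => nestedMean (Fin.tail m) fun ω => Y' fun i => Fin.cons (w i) (ω i)
    have hG : ∀ w, G w ∈ Set.Icc lo hi := fun w =>
      nestedMean_mem _ hm' hlo (hY.comp (hc w)) fun ω => hb _
    have hG' : ∀ w, G' w ∈ Set.Icc lo' hi' := fun w =>
      nestedMean_mem _ hm' hlo' (hY'.comp (hc w)) fun ω => hb' _
    have hGG : ∀ w, G w ≤ C * G' w := fun w =>
      ih _ hm' (hY.comp (hc w)) (hY'.comp (hc w)) (fun ω => hb _) (fun ω => hb' _) fun ω => hle _
    have hint : Integrable (fun w => (G w) ^ m 0) (Measure.pi fun _ : ι => unif) :=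
      Integrable.of_mem_Icc (lo ^ m 0) (hi ^ m 0) ((measurable_inner _ hY).pow_const _).aemeasurable
        (Filter.Eventually.of_forall fun w => ⟨Real.rpow_le_rpow hlo.le (hG w).1 (hm 0).le,
          Real.rpow_le_rpow (hlo.le.trans (hG w).1) (hG w).2 (hm 0).le⟩)
    have hint' : Integrable (fun w => (G' w) ^ m 0) (Measure.pi fun _ : ι => unif) :=
      Integrable.of_mem_Icc (lo' ^ m 0) (hi' ^ m 0)
        ((measurable_inner _ hY').pow_const _).aemeasurable
        (Filter.Eventually.of_forall fun w => ⟨Real.rpow_le_rpow hlo'.le (hG' w).1 (hm 0).le,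
          Real.rpow_le_rpow (hlo'.le.trans (hG' w).1) (hG' w).2 (hm 0).le⟩)
    have h1 : ∫ w, (G w) ^ m 0 ∂(Measure.pi fun _ : ι => unif) ≤
        C ^ m 0 * ∫ w, (G' w) ^ m 0 ∂(Measure.pi fun _ : ι => unif) := by
      rw [← integral_const_mul]
      refine integral_mono hint (hint'.const_mul _) fun w => ?_
      simp only []
      rw [← Real.mul_rpow hC.le (hlo'.le.trans (hG' w).1)]
      exact Real.rpow_le_rpow (hlo.le.trans (hG w).1) (hGG w) (hm 0).le
    have h0 : 0 ≤ ∫ w, (G w) ^ m 0 ∂(Measure.pi fun _ : ι => unif) :=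
      integral_nonneg fun w => Real.rpow_nonneg (hlo.le.trans (hG w).1) _
    have h0' : 0 ≤ ∫ w, (G' w) ^ m 0 ∂(Measure.pi fun _ : ι => unif) :=
      integral_nonneg fun w => Real.rpow_nonneg (hlo'.le.trans (hG' w).1) _
    simp only [nestedMean]
    calc _ ≤ (C ^ m 0 * ∫ w, (G' w) ^ m 0 ∂(Measure.pi fun _ : ι => unif)) ^ (1 / m 0) :=
          Real.rpow_le_rpow h0 h1 (one_div_pos.2 (hm 0)).le
      _ = _ := by
          rw [Real.mul_rpow (Real.rpow_nonneg hC.le _) h0', one_div,
            Real.rpow_rpow_inv hC.le (hm 0).ne']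

/-- Logarithms of nested means of comparable functions. -/
theorem log_nestedMean_le {r : ℕ} (m : Fin r → ℝ) (hm : ∀ i, 0 < m i) {lo hi lo' hi' d : ℝ}
    (hlo : 0 < lo) (hlo' : 0 < lo') {Y Y' : (ι → Fin r → ℝ) → ℝ}
    (hY : Measurable Y) (hY' : Measurable Y') (hb : ∀ ω, Y ω ∈ Set.Icc lo hi)
    (hb' : ∀ ω, Y' ω ∈ Set.Icc lo' hi') (hle : ∀ ω, Y ω ≤ Real.exp d * Y' ω) :
    Real.log (nestedMean m Y) ≤ Real.log (nestedMean m Y') + d := by
  have h1 := nestedMean_le_mul m hm hlo hlo' (Real.exp_pos d) hY hY' hb hb' hle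
  have h2 : 0 < nestedMean m Y := hlo.trans_le (nestedMean_mem m hm hlo hY hb).1
  have h3 : 0 < nestedMean m Y' := hlo'.trans_le (nestedMean_mem m hm hlo' hY' hb').1
  calc Real.log (nestedMean m Y) ≤ Real.log (Real.exp d * nestedMean m Y') :=
        Real.log_le_log h2 h1
    _ = _ := by rw [Real.log_mul (Real.exp_pos d).ne' h3.ne', Real.log_exp, add_comm]

end Vale.Agent.P168.Trunc
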